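import Mathlib.Data.Fintype.Card
import Mathlib.SetTheory.Cardinal.Finite
import Mathlib.Algebra.BigOperators.Fin

/-!
Towers of word spaces: the combinatorial data from which the zero entropy system is built.
-/

namespace Vale.Agent.P109

/-- A tower of word spaces. Words of level `j + 1` are the pairs of words of level `j` which are in
relation `G j`; every word has exactly `p j` right partners and `p j` left partners. -/
structure Tower where
  /-- the words of level `j` -/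
  W : ℕ → Type
  [fin : ∀ j, Fintype (W j)]
  [ne : ∀ j, Nonempty (W j)]
  /-- number of partners -/
  p : ℕ → ℕ
  /-- adjacency of words of level `j` -/
  G : ∀ j, W j → W j → Prop
  right : ∀ j w, Nat.card {w' // G j w w'} = p j
  left : ∀ j w', Nat.card {w // G j w w'} = p j
  /-- words of level `j + 1` are adjacent pairs -/
  e : ∀ j, W (j + 1) ≃ {q : W j × W j // G j q.1 q.2}

attribute [instance] Tower.fin Tower.ne

namespace Tower

variable (𝒯 : Tower)

/-- first half of a word -/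
def fst (j : ℕ) (w : 𝒯.W (j + 1)) : 𝒯.W j := (𝒯.e j w).1.1

/-- second half of a word -/
def snd (j : ℕ) (w : 𝒯.W (j + 1)) : 𝒯.W j := (𝒯.e j w).1.2

/-- the `i`-th letter of a word of level `j` -/
def letter : (j : ℕ) → ℕ → 𝒯.W j → 𝒯.W 0
  | 0, _, w => w
  | j + 1, i, w => if i < 2 ^ j then letter j i (𝒯.fst j w) else letter j (i - 2 ^ j) (𝒯.snd j w)

theorem G_fst_snd (j : ℕ) (w : 𝒯.W (j + 1)) : 𝒯.G j (𝒯.fst j w) (𝒯.snd j w) := (𝒯.e j w).2

theorem eq_of_fst_snd (j : ℕ) {w w' : 𝒯.W (j + 1)} (h1 : 𝒯.fst j w = 𝒯.fst j w')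
    (h2 : 𝒯.snd j w = 𝒯.snd j w') : w = w' := by
  apply (𝒯.e j).injective
  apply Subtype.ext
  exact Prod.ext h1 h2

/-- the pair as a word -/
def cons (j : ℕ) (w w' : 𝒯.W j) (h : 𝒯.G j w w') : 𝒯.W (j + 1) := (𝒯.e j).symm ⟨(w, w'), h⟩

@[simp] theorem fst_cons (j : ℕ) (w w' : 𝒯.W j) (h : 𝒯.G j w w') :
    𝒯.fst j (𝒯.cons j w w' h) = w := by
  simp [fst, cons]

@[simp] theorem snd_cons (j : ℕ) (w w' : 𝒯.W j) (h : 𝒯.G j w w') :
    𝒯.snd j (𝒯.cons j w w' h) = w' := by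
  simp [snd, cons]

theorem p_pos (j : ℕ) : 0 < 𝒯.p j := by
  obtain ⟨w⟩ := 𝒯.ne (j + 1)
  rw [← 𝒯.right j (𝒯.fst j w)]
  have : Nonempty {w' // 𝒯.G j (𝒯.fst j w) w'} := ⟨⟨𝒯.snd j w, 𝒯.G_fst_snd j w⟩⟩
  exact Nat.card_pos

theorem card_succ (j : ℕ) : Fintype.card (𝒯.W (j + 1)) = Fintype.card (𝒯.W j) * 𝒯.p j := by
  classical
  have e1 : 𝒯.W (j + 1) ≃ Σ w : 𝒯.W j, {w' // 𝒯.G j w w'} :=
    (𝒯.e j).trans
      { toFun := fun q => ⟨q.1.1, ⟨q.1.2, q.2⟩⟩
        invFun := fun s => ⟨(s.1, s.2.1), s.2.2⟩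
        left_inv := fun _ => rfl
        right_inv := fun _ => rfl }
  rw [← Nat.card_eq_fintype_card, Nat.card_congr e1, Nat.card_sigma,
    Finset.sum_congr rfl (fun w _ => 𝒯.right j w)]
  simp

/-- enumeration of the right partners -/
noncomputable def rp (j : ℕ) (w : 𝒯.W j) : Fin (𝒯.p j) ≃ {w' // 𝒯.G j w w'} :=
  (finCongr (𝒯.right j w).symm).trans (Nat.equivFinOfCardPos (by rw [𝒯.right j w]; exact (𝒯.p_pos j).ne')).symm

/-- enumeration of the left partners -/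
noncomputable def lp (j : ℕ) (w' : 𝒯.W j) : Fin (𝒯.p j) ≃ {w // 𝒯.G j w w'} :=
  (finCongr (𝒯.left j w').symm).trans (Nat.equivFinOfCardPos (by rw [𝒯.left j w']; exact (𝒯.p_pos j).ne')).symm

end Tower

end Vale.Agent.P109
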