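import Vale.Agent.P109.H787.GSys
import Vale.Agent.P109.H787.Tower

/-!
Binary towers as `GTower`s; the system over a tower has no atoms.
-/

open MeasureTheory Set
open scoped ENNReal

namespace Vale.Agent.P109

namespace GTower.Sys

variable {𝒯 : GTower} (S : Sys 𝒯)

/-- Points have measure zero. -/
theorem measure_singleton (x : S.X) : S.μ {x} = 0 := by
  have h : ∀ j, S.μ {x} ≤ ((𝒯.H j : ℕ) : ℝ≥0∞)⁻¹ := by
    intro j
    calc S.μ {x} ≤ S.μ {y | S.ph j y = S.ph j x ∧ S.wd j y = S.wd j x} := by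
          apply measure_mono
          rintro y rfl
          exact ⟨rfl, rfl⟩
      _ = ((𝒯.H j * Fintype.card (𝒯.W j) : ℕ) : ℝ≥0∞)⁻¹ := S.law j _ _ (S.ph_lt j x)
      _ ≤ _ := by
          rw [ENNReal.inv_le_inv]
          exact_mod_cast Nat.le_mul_of_pos_right _ Fintype.card_pos
  exact le_antisymm (ge_of_tendsto' tendsto_H h) bot_le

end GTower.Sys

namespace Tower

variable (𝒯 : Tower)

theorem card_fst (j : ℕ) (w : 𝒯.W j) : Nat.card {u : 𝒯.W (j + 1) // 𝒯.fst j u = w} = 𝒯.p j := by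
  rw [← 𝒯.right j w]
  refine Nat.card_congr
    { toFun := fun u => ⟨𝒯.snd j u.1, ?_⟩
      invFun := fun w' => ⟨𝒯.cons j w w'.1 w'.2, ?_⟩
      left_inv := fun u => ?_
      right_inv := fun w' => ?_ }
  · have h := 𝒯.G_fst_snd j u.1
    rwa [u.2] at h
  · simp
  · apply Subtype.ext
    apply 𝒯.eq_of_fst_snd j
    · simp [u.2]
    · simp
  · apply Subtype.ext
    simp

theorem card_snd (j : ℕ) (w : 𝒯.W j) : Nat.card {u : 𝒯.W (j + 1) // 𝒯.snd j u = w} = 𝒯.p j := by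
  rw [← 𝒯.left j w]
  refine Nat.card_congr
    { toFun := fun u => ⟨𝒯.fst j u.1, ?_⟩
      invFun := fun w' => ⟨𝒯.cons j w'.1 w w'.2, ?_⟩
      left_inv := fun u => ?_
      right_inv := fun w' => ?_ }
  · have h := 𝒯.G_fst_snd j u.1
    rwa [u.2] at h
  · simp
  · apply Subtype.ext
    apply 𝒯.eq_of_fst_snd j
    · simp
    · simp [u.2]
  · apply Subtype.ext
    simp

/-- A binary tower as a `GTower`. -/
noncomputable def toG : GTower where
  W := 𝒯.W
  m _ := 2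
  two_le _ := le_rfl
  part j u c := if (c : ℕ) = 0 then 𝒯.fst j u else 𝒯.snd j u
  p := 𝒯.p
  count j c w := by
    by_cases hc : (c : ℕ) = 0
    · simp only [hc, if_true]
      exact 𝒯.card_fst j w
    · simp only [hc, if_false]
      exact 𝒯.card_snd j w

@[simp] theorem toG_W (j : ℕ) : 𝒯.toG.W j = 𝒯.W j := rfl
@[simp] theorem toG_m (j : ℕ) : 𝒯.toG.m j = 2 := rfl
@[simp] theorem toG_p (j : ℕ) : 𝒯.toG.p j = 𝒯.p j := rfl

theorem toG_H (j : ℕ) : 𝒯.toG.H j = 2 ^ j := by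
  induction j with
  | zero => rfl
  | succ j ih => rw [GTower.H_succ, ih, pow_succ, mul_comm]; rfl

theorem toG_part (j : ℕ) (u : 𝒯.W (j + 1)) (t : ℕ) (ht : t < 2 ^ (j + 1)) :
    𝒯.toG.part j u (𝒯.toG.pos j t) = if t < 2 ^ j then 𝒯.fst j u else 𝒯.snd j u := by
  have h1 : ((𝒯.toG.pos j t : Fin (𝒯.toG.m j)) : ℕ) = t / 2 ^ j := by
    rw [𝒯.toG.pos_val (by rw [toG_H]; exact ht), toG_H]
  show (if ((𝒯.toG.pos j t : Fin (𝒯.toG.m j)) : ℕ) = 0 then 𝒯.fst j u else 𝒯.snd j u) = _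
  rw [h1]
  by_cases h : t < 2 ^ j
  · rw [if_pos h, if_pos (Nat.div_eq_of_lt h)]
  · rw [if_neg h, if_neg]
    have := Nat.div_pos (not_lt.1 h) (by positivity)
    omega

theorem toG_letter (j : ℕ) (i : ℕ) (hi : i < 2 ^ j) (w : 𝒯.W j) :
    𝒯.toG.letter j i w = 𝒯.letter j i w := by
  induction j generalizing i with
  | zero => rfl
  | succ j ih =>
    have h2 : 2 ^ (j + 1) = 2 ^ j + 2 ^ j := by rw [pow_succ]; ring
    by_cases h : i < 2 ^ j
    · have h1 : 𝒯.toG.letter (j + 1) i w = 𝒯.toG.letter j (i % 𝒯.toG.H j) (𝒯.fst j w) :=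
        congrArg (𝒯.toG.letter j (i % 𝒯.toG.H j)) ((𝒯.toG_part j w i hi).trans (if_pos h))
      rw [toG_H, Nat.mod_eq_of_lt h] at h1
      refine h1.trans ((ih _ h _).trans ?_)
      rw [letter, if_pos h]
    · have h1 : 𝒯.toG.letter (j + 1) i w = 𝒯.toG.letter j (i % 𝒯.toG.H j) (𝒯.snd j w) :=
        congrArg (𝒯.toG.letter j (i % 𝒯.toG.H j)) ((𝒯.toG_part j w i hi).trans (if_neg h))
      rw [toG_H, Nat.mod_eq_sub_mod (not_lt.1 h), Nat.mod_eq_of_lt (by omega)] at h1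
      refine h1.trans ((ih _ (by omega) _).trans ?_)
      rw [letter, if_neg h]

/-- If all pairs of words of level `j` are adjacent, the two halves are independent. -/
theorem indep_of_full (j : ℕ) (h : 𝒯.p j = Fintype.card (𝒯.W j)) : 𝒯.toG.Indep j := by
  classical
  have hG : ∀ w w', 𝒯.G j w w' := by
    intro w w'
    have h1 : Fintype.card {w' // 𝒯.G j w w'} = Fintype.card (𝒯.W j) := by
      rw [← Nat.card_eq_fintype_card, 𝒯.right j w, h]
    by_contra hw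
    have h2 := Fintype.card_subtype_lt (p := fun w' => 𝒯.G j w w') hw
    omega
  have hone : ∀ w w' : 𝒯.W j,
      Nat.card {u : 𝒯.W (j + 1) // 𝒯.fst j u = w ∧ 𝒯.snd j u = w'} = 1 := by
    intro w w'
    rw [Nat.card_eq_one_iff_unique]
    refine ⟨⟨fun a b => Subtype.ext (𝒯.eq_of_fst_snd j (a.2.1.trans b.2.1.symm)
      (a.2.2.trans b.2.2.symm))⟩, ⟨⟨𝒯.cons j w w' (hG w w'), by simp, by simp⟩⟩⟩
  have hcard : Fintype.card (𝒯.W j) ^ 2 = Fintype.card (𝒯.W (j + 1)) := by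
    rw [𝒯.card_succ j, h, sq]
  let c0 : Fin (𝒯.toG.m j) := ⟨0, Nat.zero_lt_two⟩
  let c1 : Fin (𝒯.toG.m j) := ⟨1, Nat.one_lt_two⟩
  have hne : (c0, c1) ≠ (c1, c0) := by
    intro hh
    have := congrArg (fun q : Fin (𝒯.toG.m j) × Fin (𝒯.toG.m j) => (q.1 : ℕ)) hh
    exact absurd this Nat.zero_ne_one
  refine ⟨{(c0, c1), (c1, c0)}, ?_, ?_⟩
  · rw [Finset.card_pair hne]
    exact le_of_eq rfl
  · intro q hq w w'
    rw [Finset.mem_insert, Finset.mem_singleton] at hq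
    rcases hq with rfl | rfl
    · have h1 : Nat.card {u : 𝒯.toG.W (j + 1) //
          𝒯.toG.part j u c0 = w ∧ 𝒯.toG.part j u c1 = w'} = 1 := hone w w'
      exact (congrArg (· * Fintype.card (𝒯.W j) ^ 2) h1).trans ((one_mul _).trans hcard)
    · have h1 : Nat.card {u : 𝒯.toG.W (j + 1) //
          𝒯.toG.part j u c1 = w ∧ 𝒯.toG.part j u c0 = w'} = 1 :=
        (Nat.card_congr (Equiv.subtypeEquivRight fun u => and_comm)).trans (hone w' w)
      exact (congrArg (· * Fintype.card (𝒯.W j) ^ 2) h1).trans ((one_mul _).trans hcard)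

end Tower

end Vale.Agent.P109
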