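import Vale.Agent.P109.H787.Sys
import Mathlib.Dynamics.Ergodic.MeasurePreserving

/-!
Elementary consequences of the fields of `GTower.Sys`: iterates, the towers `Z j`, parts and
letters along the orbit, disjointness, split identity.
-/

open MeasureTheory Set
open scoped ENNReal

namespace Vale.Agent.P109

namespace GTower

namespace Sys

variable {𝒯 : GTower} (S : Sys 𝒯)

/-! ### (1) iterates -/

theorem ph_wd_iterate {j : ℕ} {x : S.X} : ∀ {i : ℕ}, S.ph j x + i < 𝒯.H j →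
    S.ph j (S.T^[i] x) = S.ph j x + i ∧ S.wd j (S.T^[i] x) = S.wd j x := by
  intro i
  induction i with
  | zero => intro _; exact ⟨rfl, rfl⟩
  | succ i ih =>
    intro h
    obtain ⟨h1, h2⟩ := ih (by omega)
    rw [Function.iterate_succ_apply']
    have h3 : S.ph j (S.T^[i] x) + 1 < 𝒯.H j := by rw [h1]; omega
    exact ⟨by rw [S.ph_T j _ h3, h1]; ring, by rw [S.wd_T j _ h3, h2]⟩

theorem ph_iterate {j : ℕ} {x : S.X} {i : ℕ} (h : S.ph j x + i < 𝒯.H j) :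
    S.ph j (S.T^[i] x) = S.ph j x + i := (S.ph_wd_iterate h).1

theorem wd_iterate {j : ℕ} {x : S.X} {i : ℕ} (h : S.ph j x + i < 𝒯.H j) :
    S.wd j (S.T^[i] x) = S.wd j x := (S.ph_wd_iterate h).2

/-- the phase of an iterate in general -/
theorem ph_iterate_mod (j : ℕ) (x : S.X) (i : ℕ) :
    S.ph j (S.T^[i] x) = (S.ph j x + i) % 𝒯.H j := by
  induction i with
  | zero => exact (Nat.mod_eq_of_lt (S.ph_lt j x)).symm
  | succ i ih =>
    rw [Function.iterate_succ_apply']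
    have hlt := S.ph_lt j (S.T^[i] x)
    rcases lt_or_eq_of_le (Nat.succ_le_of_lt hlt) with h | h
    · rw [S.ph_T j _ h, ih, ← Nat.add_assoc, Nat.add_mod (S.ph j x + i) 1]
      rw [ih] at h
      by_cases h1 : 𝒯.H j = 1
      · omega
      · have h2 : 1 < 𝒯.H j := by have := 𝒯.H_pos j; omega
        rw [Nat.mod_eq_of_lt h2, Nat.mod_eq_of_lt h]
    · have h' : S.ph j (S.T^[i] x) + 1 = 𝒯.H j := h
      rw [S.ph_T_last j _ h', ← Nat.add_assoc]
      rw [ih] at h'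
      symm
      rw [← Nat.dvd_iff_mod_eq_zero]
      have h3 := Nat.div_add_mod (S.ph j x + i) (𝒯.H j)
      exact ⟨(S.ph j x + i) / 𝒯.H j + 1, by rw [mul_add, mul_one]; omega⟩

/-- the phase going back -/
theorem ph_symm {j : ℕ} {x : S.X} {i : ℕ} (h : S.ph j x = i + 1) :
    S.ph j (S.T.symm x) = i := by
  have hlt := S.ph_lt j (S.T.symm x)
  rcases lt_or_eq_of_le (Nat.succ_le_of_lt hlt) with h1 | h1
  · have h2 := S.ph_T j _ h1
    rw [MeasurableEquiv.apply_symm_apply, h] at h2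
    omega
  · have h2 := S.ph_T_last j _ h1
    rw [MeasurableEquiv.apply_symm_apply, h] at h2
    omega

/-! ### (2) the towers -/

/-- the base of the tower of level `j` -/
def Z (j : ℕ) : Set S.X := {x | S.ph j x = 0}

theorem mem_Z {j : ℕ} {x : S.X} : x ∈ S.Z j ↔ S.ph j x = 0 := Iff.rfl

theorem measurableSet_ph (j t : ℕ) : MeasurableSet {x | S.ph j x = t} :=
  S.meas_ph j (measurableSet_singleton t)

theorem measurableSet_Z (j : ℕ) : MeasurableSet (S.Z j) := S.measurableSet_ph j 0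

theorem measurable_wd (j : ℕ) : Measurable[S.ms, ⊤] (S.wd j) := by
  let _ : MeasurableSpace (𝒯.W j) := ⊤
  have : DiscreteMeasurableSpace (𝒯.W j) := ⟨fun _ => trivial⟩
  exact measurable_to_countable' (fun v => S.meas_wd j v)

theorem measurable_T_iterate (i : ℕ) : Measurable (S.T^[i]) := S.T.measurable.iterate i

theorem iterate_image_Z {j i : ℕ} (hi : i < 𝒯.H j) :
    S.T^[i] '' S.Z j = {x | S.ph j x = i} := by
  ext x
  constructor
  · rintro ⟨z, hz, rfl⟩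
    have hz' : S.ph j z = 0 := hz
    show S.ph j (S.T^[i] z) = i
    rw [S.ph_iterate (by omega), hz', zero_add]
  · intro hx
    have hx' : S.ph j x = i := hx
    clear hx
    induction i generalizing x with
    | zero => exact ⟨x, hx', rfl⟩
    | succ i ih =>
      obtain ⟨z, hz, hzx⟩ := ih (by omega) (S.T.symm x) (S.ph_symm hx')
      refine ⟨z, hz, ?_⟩
      rw [Function.iterate_succ_apply', hzx, MeasurableEquiv.apply_symm_apply]

theorem pairwiseDisjoint_image_Z (j : ℕ) {i i' : ℕ} (hi : i < 𝒯.H j) (hi' : i' < 𝒯.H j)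
    (h : i ≠ i') : Disjoint (S.T^[i] '' S.Z j) (S.T^[i'] '' S.Z j) := by
  rw [S.iterate_image_Z hi, S.iterate_image_Z hi', Set.disjoint_left]
  intro x hx hx'
  exact h (hx.symm.trans hx')

/-- every point is in exactly one floor of the tower of level `j` -/
theorem iUnion_image_Z (j : ℕ) : (⋃ i ∈ Finset.range (𝒯.H j), S.T^[i] '' S.Z j) = univ := by
  ext x
  simp only [Finset.mem_range, mem_iUnion, mem_univ, iff_true]
  exact ⟨S.ph j x, S.ph_lt j x, by rw [S.iterate_image_Z (S.ph_lt j x)]; rfl⟩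

theorem mul_natCast_inv {a b : ℕ} (hb : b ≠ 0) :
    (b : ℝ≥0∞) * ((a * b : ℕ) : ℝ≥0∞)⁻¹ = (a : ℝ≥0∞)⁻¹ := by
  have hb' : (b : ℝ≥0∞) ≠ 0 := Nat.cast_ne_zero.2 hb
  rw [Nat.cast_mul, ENNReal.mul_inv (Or.inr (ENNReal.natCast_ne_top b)) (Or.inr hb'),
    mul_comm, mul_assoc, ENNReal.inv_mul_cancel hb' (ENNReal.natCast_ne_top b), mul_one]

/-- the law of the phase -/
theorem law_ph (j t : ℕ) (ht : t < 𝒯.H j) : S.μ {x | S.ph j x = t} = (𝒯.H j : ℝ≥0∞)⁻¹ := by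
  classical
  have h1 : {x | S.ph j x = t} = ⋃ v : 𝒯.W j, {x | S.ph j x = t ∧ S.wd j x = v} := by
    ext x; simp
  rw [h1, measure_iUnion]
  · rw [tsum_fintype, Finset.sum_congr rfl (fun v _ => S.law j t v ht), Finset.sum_const,
      Finset.card_univ, nsmul_eq_mul]
    exact mul_natCast_inv Fintype.card_ne_zero
  · intro v v' hv
    rw [Function.onFun, Set.disjoint_left]
    rintro x ⟨_, hx⟩ ⟨_, hx'⟩
    exact hv (hx.symm.trans hx')
  · intro v
    exact (S.measurableSet_ph j t).inter (S.meas_wd j v)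

theorem measure_Z (j : ℕ) : S.μ (S.Z j) = (𝒯.H j : ℝ≥0∞)⁻¹ := S.law_ph j 0 (𝒯.H_pos j)

theorem measure_Z_wd (j : ℕ) (v : 𝒯.W j) :
    S.μ (S.Z j ∩ {x | S.wd j x = v}) =
      ((𝒯.H j * Fintype.card (𝒯.W j) : ℕ) : ℝ≥0∞)⁻¹ := S.law j 0 v (𝒯.H_pos j)

/-- the law of the word on the base, for sets of words -/
theorem measure_Z_wd_mem (j : ℕ) (s : Finset (𝒯.W j)) :
    S.μ (S.Z j ∩ {x | S.wd j x ∈ s}) =
      s.card * ((𝒯.H j * Fintype.card (𝒯.W j) : ℕ) : ℝ≥0∞)⁻¹ := by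
  classical
  have h1 : S.Z j ∩ {x | S.wd j x ∈ s} = ⋃ v ∈ s, (S.Z j ∩ {x | S.wd j x = v}) := by
    ext x; simp
  rw [h1, measure_biUnion_finset]
  · rw [Finset.sum_congr rfl (fun v _ => S.measure_Z_wd j v), Finset.sum_const, nsmul_eq_mul]
  · intro v _ v' _ hv
    rw [Function.onFun, Set.disjoint_left]
    rintro x ⟨_, hx⟩ ⟨_, hx'⟩
    exact hv (hx.symm.trans hx')
  · intro v _
    exact (S.measurableSet_Z j).inter (S.meas_wd j v)

/-- the law of the word -/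
theorem law_wd (j : ℕ) (v : 𝒯.W j) :
    S.μ {x | S.wd j x = v} = (Fintype.card (𝒯.W j) : ℝ≥0∞)⁻¹ := by
  classical
  have h1 : {x | S.wd j x = v} =
      ⋃ t ∈ Finset.range (𝒯.H j), {x | S.ph j x = t ∧ S.wd j x = v} := by
    ext x
    simp only [mem_ofPred_eq, Finset.mem_range, mem_iUnion, exists_prop]
    exact ⟨fun h => ⟨S.ph j x, S.ph_lt j x, rfl, h⟩, fun ⟨_, _, _, h⟩ => h⟩
  rw [h1, measure_biUnion_finset]
  · rw [Finset.sum_congr rfl (fun t ht => S.law j t v (Finset.mem_range.1 ht)), Finset.sum_const,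
      Finset.card_range, nsmul_eq_mul, mul_comm (𝒯.H j) (Fintype.card (𝒯.W j))]
    exact mul_natCast_inv (𝒯.H_pos j).ne'
  · intro t _ t' _ ht
    rw [Function.onFun, Set.disjoint_left]
    rintro x ⟨hx, _⟩ ⟨hx', _⟩
    exact ht (hx.symm.trans hx')
  · intro t _
    exact (S.measurableSet_ph j t).inter (S.meas_wd j v)

/-! ### (3) parts along the orbit -/

theorem ph_eq_zero_of_succ {j : ℕ} {x : S.X} (h : S.ph (j + 1) x = 0) : S.ph j x = 0 := by
  rw [← S.ph_mod j x, h, Nat.zero_mod]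

theorem Z_succ_subset (j : ℕ) : S.Z (j + 1) ⊆ S.Z j := fun _ h => S.ph_eq_zero_of_succ h

theorem ph_of_ph_succ {j : ℕ} {x : S.X} {c : ℕ} (h : S.ph (j + 1) x = c * 𝒯.H j) :
    S.ph j x = 0 := by
  rw [← S.ph_mod j x, h, Nat.mul_mod_left]

theorem mul_H_lt (j : ℕ) (c : Fin (𝒯.m j)) : (c : ℕ) * 𝒯.H j < 𝒯.H (j + 1) := by
  rw [H_succ]
  exact Nat.mul_lt_mul_of_pos_right c.2 (𝒯.H_pos j)

theorem mul_H_add_lt (j : ℕ) (c : Fin (𝒯.m j)) {i : ℕ} (hi : i < 𝒯.H j) :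
    (c : ℕ) * 𝒯.H j + i < 𝒯.H (j + 1) := by
  rw [H_succ]
  calc (c : ℕ) * 𝒯.H j + i < (c : ℕ) * 𝒯.H j + 𝒯.H j := Nat.add_lt_add_left hi _
    _ = ((c : ℕ) + 1) * 𝒯.H j := by ring
    _ ≤ 𝒯.m j * 𝒯.H j := Nat.mul_le_mul_right _ c.2

/-- for a point at position `c * H j + i` of its block of level `j + 1` the word of level `j` is
the part `c` of the word of level `j + 1` -/
theorem wd_of_ph {j : ℕ} {x : S.X} {c : Fin (𝒯.m j)} {i : ℕ} (hi : i < 𝒯.H j)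
    (h : S.ph (j + 1) x = c * 𝒯.H j + i) :
    S.ph j x = i ∧ S.wd j x = 𝒯.part j (S.wd (j + 1) x) c := by
  constructor
  · rw [← S.ph_mod j x, h, add_comm, Nat.add_mul_mod_self_right, Nat.mod_eq_of_lt hi]
  · rw [S.wd_part j x, h, add_comm ((c : ℕ) * 𝒯.H j) i, 𝒯.pos_add j i c hi]

theorem iterate_mem_Z {j : ℕ} {z : S.X} (hz : z ∈ S.Z (j + 1)) (c : Fin (𝒯.m j)) :
    S.T^[c * 𝒯.H j] z ∈ S.Z j := by
  have hz' : S.ph (j + 1) z = 0 := hz
  have h := S.ph_iterate (j := j + 1) (x := z) (i := c * 𝒯.H j)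
    (by rw [hz', zero_add]; exact mul_H_lt j c)
  rw [hz', zero_add] at h
  exact S.ph_of_ph_succ h

theorem wd_iterate_Z {j : ℕ} {z : S.X} (hz : z ∈ S.Z (j + 1)) (c : Fin (𝒯.m j)) :
    S.wd j (S.T^[c * 𝒯.H j] z) = 𝒯.part j (S.wd (j + 1) z) c := by
  have hz' : S.ph (j + 1) z = 0 := hz
  have h0 : S.ph (j + 1) z + c * 𝒯.H j < 𝒯.H (j + 1) := by
    rw [hz', zero_add]; exact mul_H_lt j c
  have h := S.ph_wd_iterate h0
  rw [hz', zero_add] at h
  rw [(S.wd_of_ph (c := c) (i := 0) (𝒯.H_pos j) (by rw [h.1, add_zero])).2, h.2]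

/-- On the base of level `j + 1` the word of level `j` is the first part. -/
theorem wd_Z_succ {j : ℕ} {z : S.X} (hz : z ∈ S.Z (j + 1)) :
    S.wd j z = 𝒯.part j (S.wd (j + 1) z) ⟨0, 𝒯.m_pos j⟩ := by
  have h := S.wd_iterate_Z hz ⟨0, 𝒯.m_pos j⟩
  simpa using h

/-! ### (4) letters -/

theorem wd_zero_eq_letter (j : ℕ) (x : S.X) :
    S.wd 0 x = 𝒯.letter j (S.ph j x) (S.wd j x) := by
  induction j with
  | zero => rfl
  | succ j ih =>
    show S.wd 0 x = 𝒯.letter j (S.ph (j + 1) x % 𝒯.H j)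
      (𝒯.part j (S.wd (j + 1) x) (𝒯.pos j (S.ph (j + 1) x)))
    rw [S.ph_mod, ← S.wd_part]
    exact ih

theorem wd_zero_iterate_Z {j : ℕ} {z : S.X} (hz : z ∈ S.Z j) {i : ℕ} (hi : i < 𝒯.H j) :
    S.wd 0 (S.T^[i] z) = 𝒯.letter j i (S.wd j z) := by
  have hz' : S.ph j z = 0 := hz
  have h := S.ph_wd_iterate (j := j) (x := z) (i := i) (by omega)
  rw [S.wd_zero_eq_letter j, h.1, h.2, hz', zero_add]

/-! ### (5) disjointness of preimages -/

theorem ph_iterate_eq_zero_unique {j : ℕ} {x : S.X} {i i' : ℕ} (hi : i < 𝒯.H j)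
    (hi' : i' < 𝒯.H j) (h : S.ph j (S.T^[i] x) = 0) (h' : S.ph j (S.T^[i'] x) = 0) : i = i' := by
  rw [S.ph_iterate_mod] at h h'
  have h1 : (S.ph j x + i) % 𝒯.H j = (S.ph j x + i') % 𝒯.H j := by rw [h, h']
  have h2 : i ≡ i' [MOD 𝒯.H j] := Nat.ModEq.add_left_cancel' (S.ph j x) h1
  have h3 : i % 𝒯.H j = i' % 𝒯.H j := h2
  rwa [Nat.mod_eq_of_lt hi, Nat.mod_eq_of_lt hi'] at h3

theorem disjoint_preimage_Z (j : ℕ) {i i' : ℕ} (hi : i < 𝒯.H j) (hi' : i' < 𝒯.H j)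
    (h : i ≠ i') : Disjoint (S.T^[i] ⁻¹' S.Z j) (S.T^[i'] ⁻¹' S.Z j) := by
  rw [Set.disjoint_left]
  intro x hx hx'
  exact h (S.ph_iterate_eq_zero_unique hi hi' hx hx')

theorem disjoint_preimage_ph (j : ℕ) {i i' : ℕ} (hi : i < 𝒯.H j) (hi' : i' < 𝒯.H j)
    (h : i ≠ i') : Disjoint (S.T^[i] ⁻¹' {x | S.ph j x = 0}) (S.T^[i'] ⁻¹' {x | S.ph j x = 0}) :=
  S.disjoint_preimage_Z j hi hi' h

theorem disjoint_preimage_of_subset_Z (j : ℕ) {Y : Set S.X} (hY : Y ⊆ S.Z j) {i i' : ℕ}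
    (hi : i < 𝒯.H j) (hi' : i' < 𝒯.H j) (h : i ≠ i') :
    Disjoint (S.T^[i] ⁻¹' Y) (S.T^[i'] ⁻¹' Y) :=
  (S.disjoint_preimage_Z j hi hi' h).mono (preimage_mono hY) (preimage_mono hY)

/-! ### (6) split identity -/

theorem mp_iterate (i : ℕ) : MeasurePreserving (S.T^[i]) S.μ S.μ := S.mp.iterate i

/-- the base of level `j` in terms of the phase of level `j + 1` -/
theorem mem_Z_iff {j : ℕ} {x : S.X} :
    x ∈ S.Z j ↔ ∃ c : Fin (𝒯.m j), S.ph (j + 1) x = c * 𝒯.H j := by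
  constructor
  · intro h
    have h0 : S.ph j x = 0 := h
    rw [← S.ph_mod j x] at h0
    have hlt := S.ph_lt (j + 1) x
    refine ⟨𝒯.pos j (S.ph (j + 1) x), ?_⟩
    rw [𝒯.pos_val hlt]
    exact (Nat.div_mul_cancel (Nat.dvd_of_mod_eq_zero h0)).symm
  · rintro ⟨c, hc⟩
    exact S.ph_of_ph_succ hc

/-- General split identity: the base of level `j` is the disjoint union of the floors
`c * H j` of the tower of level `j + 1`. -/
theorem measure_Z_inter (j : ℕ) {s : Set S.X} (hs : MeasurableSet s) :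
    S.μ (S.Z j ∩ s) = ∑ c : Fin (𝒯.m j), S.μ (S.Z (j + 1) ∩ S.T^[c * 𝒯.H j] ⁻¹' s) := by
  classical
  have h1 : S.Z j ∩ s = ⋃ c : Fin (𝒯.m j), ({x | S.ph (j + 1) x = c * 𝒯.H j} ∩ s) := by
    ext x
    simp only [mem_inter_iff, S.mem_Z_iff, mem_iUnion, mem_ofPred_eq]
    exact ⟨fun ⟨⟨c, hc⟩, hx⟩ => ⟨c, hc, hx⟩, fun ⟨c, hc, hx⟩ => ⟨⟨c, hc⟩, hx⟩⟩
  rw [h1, measure_iUnion, tsum_fintype]
  · refine Finset.sum_congr rfl fun c _ => ?_
    rw [← (S.mp_iterate (c * 𝒯.H j)).measure_preimage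
      ((S.measurableSet_ph (j + 1) _).inter hs).nullMeasurableSet]
    congr 1
    ext x
    simp only [mem_preimage, mem_inter_iff, mem_ofPred_eq]
    have hiff : S.ph (j + 1) (S.T^[c * 𝒯.H j] x) = c * 𝒯.H j ↔ x ∈ S.Z (j + 1) := by
      constructor
      · intro h
        have h2 : S.T^[c * 𝒯.H j] x ∈ S.T^[c * 𝒯.H j] '' S.Z (j + 1) := by
          rw [S.iterate_image_Z (mul_H_lt j c)]; exact h
        obtain ⟨z, hz, hzx⟩ := h2
        have hinj : Function.Injective (S.T^[c * 𝒯.H j]) := S.T.injective.iterate _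
        rwa [← hinj hzx]
      · intro h
        have h' : S.ph (j + 1) x = 0 := h
        rw [S.ph_iterate (by rw [h', zero_add]; exact mul_H_lt j c), h', zero_add]
    rw [hiff]
  · intro c c' hc
    rw [Function.onFun, Set.disjoint_left]
    rintro x ⟨hx, _⟩ ⟨hx', _⟩
    have h3 : S.ph (j + 1) x = c * 𝒯.H j := hx
    have h4 : S.ph (j + 1) x = c' * 𝒯.H j := hx'
    exact hc (Fin.ext (Nat.eq_of_mul_eq_mul_right (𝒯.H_pos j) (h3.symm.trans h4)))
  · intro c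
    exact (S.measurableSet_ph (j + 1) _).inter hs

/-- Split identity for two parts. -/
theorem measure_Z_inter_two (j : ℕ) (hm : 𝒯.m j = 2) {s : Set S.X} (hs : MeasurableSet s) :
    S.μ (S.Z j ∩ s) = S.μ (S.Z (j + 1) ∩ s) + S.μ (S.Z (j + 1) ∩ S.T^[𝒯.H j] ⁻¹' s) := by
  rw [S.measure_Z_inter j hs]
  have key : ∀ (m : ℕ) (_ : m = 2) (f : ℕ → ℝ≥0∞), ∑ c : Fin m, f c = f 0 + f 1 := by
    rintro m rfl f
    rw [Fin.sum_univ_two]; rfl
  rw [key (𝒯.m j) hm (fun c => S.μ (S.Z (j + 1) ∩ S.T^[c * 𝒯.H j] ⁻¹' s))]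
  simp

end Sys

end GTower

end Vale.Agent.P109
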