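import Vale.Agent.P109.F674.KS
import Mathlib.MeasureTheory.Measure.Typeclasses.Probability
import Mathlib.Dynamics.Ergodic.MeasurePreserving
import Mathlib.Analysis.Convex.Jensen
import Mathlib.Analysis.SpecialFunctions.Log.NegMulLog
import Mathlib.Tactic.Linarith

/-!
Elementary facts on the Shannon entropy of maps to finite types.
-/

open MeasureTheory Set
open scoped ENNReal

namespace Vale.Agent.P109.KS

variable {X : Type} [MeasurableSpace X] {μ : Measure X} [IsProbabilityMeasure μ]
  {A B : Type} [Fintype A] [Fintype B]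

theorem negMulLog_sum_le {ι : Type*} (s : Finset ι) (p : ι → ℝ) (hp : ∀ i ∈ s, 0 ≤ p i) :
    Real.negMulLog (∑ i ∈ s, p i) ≤ ∑ i ∈ s, Real.negMulLog (p i) := by
  classical
  induction s using Finset.induction_on with
  | empty => simp
  | insert a s ha ih =>
    rw [Finset.sum_insert ha, Finset.sum_insert ha]
    have h1 := ih fun i hi => hp i (Finset.mem_insert_of_mem hi)
    have h2 : 0 ≤ p a := hp a (Finset.mem_insert_self _ _)
    have h3 : 0 ≤ ∑ i ∈ s, p i := Finset.sum_nonneg fun i hi => hp i (Finset.mem_insert_of_mem hi)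
    set x := p a
    set y := ∑ i ∈ s, p i
    have h4 : Real.negMulLog (x + y) ≤ Real.negMulLog x + Real.negMulLog y := by
      simp only [Real.negMulLog]
      have h5 : x * Real.log x ≤ x * Real.log (x + y) := by
        rcases h2.eq_or_lt with h | h
        · rw [← h]; simp
        · exact mul_le_mul_of_nonneg_left (Real.log_le_log h (by linarith)) h2
      have h6 : y * Real.log y ≤ y * Real.log (x + y) := by
        rcases h3.eq_or_lt with h | h
        · rw [← h]; simp
        · exact mul_le_mul_of_nonneg_left (Real.log_le_log h (by linarith)) h3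
      have h7 : (x + y) * Real.log (x + y) = x * Real.log (x + y) + y * Real.log (x + y) := by ring
      linarith
    linarith

omit [Fintype A] in
theorem measureReal_preimage_eq_sum {F : X → A} (hF : ∀ a, MeasurableSet (F ⁻¹' {a}))
    (s : Finset A) : μ.real (F ⁻¹' s) = ∑ a ∈ s, μ.real (F ⁻¹' {a}) := by
  have h1 : F ⁻¹' s = ⋃ a ∈ s, F ⁻¹' {a} := by ext x; simp
  rw [h1, measureReal_biUnion_finset]
  · intro a _ b _ hab
    rw [Function.onFun, Set.disjoint_left]
    intro x h1 h2
    simp only [mem_preimage, mem_singleton_iff] at h1 h2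
    exact hab (h1.symm.trans h2)
  · intro a _
    exact hF a

theorem sum_measureReal_eq_one {F : X → A} (hF : ∀ a, MeasurableSet (F ⁻¹' {a})) :
    ∑ a, μ.real (F ⁻¹' {a}) = 1 := by
  rw [← measureReal_preimage_eq_sum hF Finset.univ]
  simp

/-- Entropy decreases under functions. -/
theorem shannon_comp_le {F : X → A} (hF : ∀ a, MeasurableSet (F ⁻¹' {a})) (φ : A → B) :
    shannon μ (fun x => φ (F x)) ≤ shannon μ F := by
  classical
  unfold shannon
  rw [← Finset.sum_fiberwise (s := (Finset.univ : Finset A)) (g := φ)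
    (f := fun a => Real.negMulLog (μ.real (F ⁻¹' {a})))]
  refine Finset.sum_le_sum fun b _ => ?_
  have h1 : (fun x => φ (F x)) ⁻¹' {b} =
      F ⁻¹' ((Finset.univ.filter (fun a => φ a = b) : Finset A) : Set A) := by
    ext x; simp
  rw [h1, measureReal_preimage_eq_sum hF]
  exact negMulLog_sum_le _ _ fun i _ => measureReal_nonneg

theorem gibbs_term {p q : ℝ} (hp : 0 ≤ p) (hq : 0 ≤ q) (h : q = 0 → p = 0) :
    p * Real.log q + Real.negMulLog p ≤ q - p := by
  rcases hp.eq_or_lt with h0 | h0
  · rw [← h0]; simp [hq]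
  · have hq' : 0 < q := lt_of_le_of_ne hq fun h1 => h0.ne' (h h1.symm)
    have h1 : Real.log (q / p) ≤ q / p - 1 := Real.log_le_sub_one_of_pos (by positivity)
    rw [Real.log_div hq'.ne' h0.ne'] at h1
    have h2 := mul_le_mul_of_nonneg_left h1 hp
    have h3 : p * (q / p - 1) = q - p := by field_simp
    rw [h3] at h2
    simp only [Real.negMulLog]
    linarith

/-- Subadditivity. -/
theorem shannon_prod_le {F : X → A} (hF : ∀ a, MeasurableSet (F ⁻¹' {a})) {G : X → B}
    (hG : ∀ b, MeasurableSet (G ⁻¹' {b})) :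
    shannon μ (fun x => (F x, G x)) ≤ shannon μ F + shannon μ G := by
  classical
  set p : A → B → ℝ := fun a b => μ.real ((fun x => (F x, G x)) ⁻¹' {(a, b)}) with hp
  have hpre : ∀ a b, (fun x => (F x, G x)) ⁻¹' {(a, b)} = F ⁻¹' {a} ∩ G ⁻¹' {b} := by
    intro a b; ext x; simp
  have hFa : ∀ a, μ.real (F ⁻¹' {a}) = ∑ b, p a b := by
    intro a
    have h1 : F ⁻¹' {a} = ⋃ b ∈ (Finset.univ : Finset B), (F ⁻¹' {a} ∩ G ⁻¹' {b}) := by
      ext x; simp
    rw [h1, measureReal_biUnion_finset]
    · refine Finset.sum_congr rfl fun b _ => ?_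
      rw [hp]; simp only; rw [hpre]
    · intro b _ b' _ hbb
      rw [Function.onFun, Set.disjoint_left]
      intro x h1 h2
      simp only [mem_inter_iff, mem_preimage, mem_singleton_iff] at h1 h2
      exact hbb (h1.2.symm.trans h2.2)
    · intro b _
      exact (hF a).inter (hG b)
  have hGb : ∀ b, μ.real (G ⁻¹' {b}) = ∑ a, p a b := by
    intro b
    have h1 : G ⁻¹' {b} = ⋃ a ∈ (Finset.univ : Finset A), (F ⁻¹' {a} ∩ G ⁻¹' {b}) := by
      ext x; simp
    rw [h1, measureReal_biUnion_finset]
    · refine Finset.sum_congr rfl fun a _ => ?_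
      rw [hp]; simp only; rw [hpre]
    · intro b _ b' _ hbb
      rw [Function.onFun, Set.disjoint_left]
      intro x h1 h2
      simp only [mem_inter_iff, mem_preimage, mem_singleton_iff] at h1 h2
      exact hbb (h1.1.symm.trans h2.1)
    · intro a _
      exact (hF a).inter (hG b)
  set P : A → ℝ := fun a => μ.real (F ⁻¹' {a}) with hP
  set Q : B → ℝ := fun b => μ.real (G ⁻¹' {b}) with hQ
  have hp0 : ∀ a b, 0 ≤ p a b := fun a b => measureReal_nonneg
  have hP0 : ∀ a, 0 ≤ P a := fun a => measureReal_nonneg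
  have hQ0 : ∀ b, 0 ≤ Q b := fun b => measureReal_nonneg
  have hle1 : ∀ a b, p a b ≤ P a := by
    intro a b
    rw [hP]; simp only; rw [hFa a]
    exact Finset.single_le_sum (fun b _ => hp0 a b) (Finset.mem_univ b)
  have hle2 : ∀ a b, p a b ≤ Q b := by
    intro a b
    rw [hQ]; simp only; rw [hGb b]
    exact Finset.single_le_sum (f := fun a => p a b) (fun a _ => hp0 a b) (Finset.mem_univ a)
  -- termwise
  have hterm : ∀ a b, Real.negMulLog (p a b) + p a b * Real.log (P a) + p a b * Real.log (Q b) ≤
      P a * Q b - p a b := by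
    intro a b
    rcases (hp0 a b).eq_or_lt with h0 | h0
    · rw [← h0]
      simp only [Real.negMulLog_zero, zero_mul, add_zero, sub_zero]
      exact mul_nonneg (hP0 a) (hQ0 b)
    · have h1 : 0 < P a := lt_of_lt_of_le h0 (hle1 a b)
      have h2 : 0 < Q b := lt_of_lt_of_le h0 (hle2 a b)
      have h3 := gibbs_term (hp0 a b) (mul_nonneg (hP0 a) (hQ0 b))
        (fun h => absurd h (mul_pos h1 h2).ne')
      rw [Real.log_mul h1.ne' h2.ne'] at h3
      have h4 : p a b * (Real.log (P a) + Real.log (Q b)) =
        p a b * Real.log (P a) + p a b * Real.log (Q b) := by ring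
      linarith
  have hsum : ∑ a, ∑ b, (Real.negMulLog (p a b) + p a b * Real.log (P a) +
      p a b * Real.log (Q b)) ≤ ∑ a, ∑ b, (P a * Q b - p a b) :=
    Finset.sum_le_sum fun a _ => Finset.sum_le_sum fun b _ => hterm a b
  have hPsum : ∑ a, P a = 1 := sum_measureReal_eq_one hF
  have hQsum : ∑ b, Q b = 1 := sum_measureReal_eq_one hG
  have hpsum : ∑ a, ∑ b, p a b = 1 := by
    rw [← hPsum]
    exact Finset.sum_congr rfl fun a _ => (hFa a).symm
  have hr : ∑ a, ∑ b, (P a * Q b - p a b) = 0 := by
    simp only [Finset.sum_sub_distrib, hpsum, ← Finset.mul_sum, hQsum, mul_one, hPsum, sub_self]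
  have hl1 : ∑ a, ∑ b, p a b * Real.log (P a) = - shannon μ F := by
    unfold shannon
    rw [← Finset.sum_neg_distrib]
    refine Finset.sum_congr rfl fun a _ => ?_
    rw [← Finset.sum_mul, ← hFa a, Real.negMulLog]
    simp only [hP]
    ring
  have hl2 : ∑ a, ∑ b, p a b * Real.log (Q b) = - shannon μ G := by
    unfold shannon
    rw [← Finset.sum_neg_distrib, Finset.sum_comm]
    refine Finset.sum_congr rfl fun b _ => ?_
    rw [← Finset.sum_mul, ← hGb b, Real.negMulLog]
    simp only [hQ]
    ring
  have hl3 : ∑ a, ∑ b, Real.negMulLog (p a b) = shannon μ (fun x => (F x, G x)) := by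
    unfold shannon
    rw [Fintype.sum_prod_type]
  simp only [Finset.sum_add_distrib] at hsum
  rw [hl1, hl2, hl3, hr] at hsum
  linarith

/-- Entropy is at most the logarithm of the number of values. -/
theorem shannon_le_log_card {F : X → A} (hF : ∀ a, MeasurableSet (F ⁻¹' {a})) :
    shannon μ F ≤ Real.log (Fintype.card A) := by
  have hne : Nonempty X := nonempty_of_isProbabilityMeasure μ
  have hneA : Nonempty A := hne.map F
  have hN : (0 : ℝ) < Fintype.card A := by exact_mod_cast Fintype.card_pos
  unfold shannon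
  have h1 : ∀ a, Real.negMulLog (μ.real (F ⁻¹' {a})) ≤
      μ.real (F ⁻¹' {a}) * Real.log (Fintype.card A) + (1 / Fintype.card A - μ.real (F ⁻¹' {a})) := by
    intro a
    have h2 := gibbs_term (p := μ.real (F ⁻¹' {a})) (q := 1 / Fintype.card A) measureReal_nonneg
      (by positivity) (fun h => absurd h (by positivity))
    rw [one_div, Real.log_inv] at h2
    rw [one_div]
    linarith
  refine (Finset.sum_le_sum fun a _ => h1 a).trans ?_
  rw [Finset.sum_add_distrib, Finset.sum_sub_distrib, ← Finset.sum_mul, sum_measureReal_eq_one hF]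
  simp only [Finset.sum_const, Finset.card_univ, nsmul_eq_mul, one_mul]
  have : (Fintype.card A : ℝ) * (1 / Fintype.card A) = 1 := by field_simp
  linarith

omit [Fintype A] in
theorem measurableSet_comp_iterate {T : X → X} (hT : Measurable T) {e : X → A}
    (he : ∀ a, MeasurableSet (e ⁻¹' {a})) (i : ℕ) (a : A) :
    MeasurableSet ((fun x => e (T^[i] x)) ⁻¹' {a}) := (hT.iterate i) (he a)

omit [Fintype A] in
theorem measurableSet_name {T : X → X} (hT : Measurable T) {e : X → A}
    (he : ∀ a, MeasurableSet (e ⁻¹' {a})) (n : ℕ) (a : Fin n → A) :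
    MeasurableSet (name T e n ⁻¹' {a}) := by
  have h : name T e n ⁻¹' {a} = ⋂ i : Fin n, (fun x => e (T^[i] x)) ⁻¹' {a i} := by
    ext x
    simp only [mem_preimage, mem_singleton_iff, mem_iInter, funext_iff, name]
  rw [h]
  exact MeasurableSet.iInter fun i => measurableSet_comp_iterate hT he i _

omit [IsProbabilityMeasure μ] in
theorem shannon_comp_iterate {T : X → X} (hT : MeasurePreserving T μ μ) {e : X → A}
    (he : ∀ a, MeasurableSet (e ⁻¹' {a})) (i : ℕ) :
    shannon μ (fun x => e (T^[i] x)) = shannon μ e := by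
  unfold shannon
  refine Finset.sum_congr rfl fun a _ => ?_
  have h : (fun x => e (T^[i] x)) ⁻¹' {a} = T^[i] ⁻¹' (e ⁻¹' {a}) := rfl
  rw [h, measureReal_def, measureReal_def,
    (hT.iterate i).measure_preimage (he a).nullMeasurableSet]

/-- The entropy of names of length `n` is at most `n` times the entropy of the coding. -/
theorem shannon_name_le {T : X → X} (hT : MeasurePreserving T μ μ) {e : X → A}
    (he : ∀ a, MeasurableSet (e ⁻¹' {a})) (n : ℕ) :
    shannon μ (name T e n) ≤ n * shannon μ e := by
  induction n with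
  | zero =>
    have h := shannon_le_log_card (μ := μ) (measurableSet_name hT.measurable he 0)
    simpa using h
  | succ n ih =>
    obtain ⟨φ, hφ⟩ : ∃ φ : (Fin n → A) × A → (Fin (n + 1) → A),
        ∀ x, φ (name T e n x, e (T^[n] x)) = name T e (n + 1) x := by
      refine ⟨fun q => Fin.snoc q.1 q.2, fun x => ?_⟩
      funext i
      refine Fin.lastCases ?_ (fun i => ?_) i
      · simp [name]
      · simp [name]
    have h1 : name T e (n + 1) = fun x => φ (name T e n x, e (T^[n] x)) :=
      funext fun x => (hφ x).symm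
    have h2 : ∀ q : (Fin n → A) × A,
        MeasurableSet ((fun x => (name T e n x, e (T^[n] x))) ⁻¹' {q}) := by
      intro q
      have h3 : (fun x => (name T e n x, e (T^[n] x))) ⁻¹' {q} =
          name T e n ⁻¹' {q.1} ∩ (fun x => e (T^[n] x)) ⁻¹' {q.2} := by
        ext x
        simp [Prod.ext_iff]
      rw [h3]
      exact (measurableSet_name hT.measurable he n q.1).inter
        (measurableSet_comp_iterate hT.measurable he n q.2)
    have h6 : shannon μ (fun x => φ (name T e n x, e (T^[n] x))) ≤
        shannon μ (fun x => (name T e n x, e (T^[n] x))) :=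
      shannon_comp_le (F := fun x => (name T e n x, e (T^[n] x))) h2 φ
    have h5 : shannon μ (fun x => (name T e n x, e (T^[n] x))) ≤
        shannon μ (name T e n) + shannon μ (fun x => e (T^[n] x)) :=
      shannon_prod_le (F := name T e n) (G := fun x => e (T^[n] x))
        (measurableSet_name hT.measurable he n) (measurableSet_comp_iterate hT.measurable he n)
    rw [shannon_comp_iterate hT he] at h5
    rw [h1]
    push_cast
    linarith

/-- A map which takes the value `none` with probability close to `1` has small entropy. -/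
theorem exists_shannon_small (A : Type) [Fintype A] {ε : ℝ} (hε : 0 < ε) :
    ∃ δ : ℝ, 0 < δ ∧ ∀ (X : Type) [MeasurableSpace X] (μ : Measure X) [IsProbabilityMeasure μ]
      (e : X → Option A), (∀ a, MeasurableSet (e ⁻¹' {a})) → μ.real {x | e x ≠ none} ≤ δ →
      shannon μ e ≤ ε := by
  have hN : (0 : ℝ) < Fintype.card A + 1 := by positivity
  have hη : 0 < ε / (Fintype.card A + 1) := by positivity
  have hc0 : ContinuousAt Real.negMulLog 0 := Real.continuous_negMulLog.continuousAt
  have hc1 : ContinuousAt Real.negMulLog 1 := Real.continuous_negMulLog.continuousAt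
  obtain ⟨δ1, hδ1, h1⟩ := Metric.continuousAt_iff.1 hc0 _ hη
  obtain ⟨δ2, hδ2, h2⟩ := Metric.continuousAt_iff.1 hc1 _ hη
  refine ⟨min δ1 δ2 / 2, half_pos (lt_min hδ1 hδ2), ?_⟩
  intro X _ μ _ e he hδ
  have hd1 : min δ1 δ2 / 2 < δ1 := by
    have := min_le_left δ1 δ2
    have : 0 < min δ1 δ2 := lt_min hδ1 hδ2
    linarith
  have hd2 : min δ1 δ2 / 2 < δ2 := by
    have := min_le_right δ1 δ2
    have : 0 < min δ1 δ2 := lt_min hδ1 hδ2
    linarith
  unfold shannon
  rw [Fintype.sum_option]
  have hnone : Real.negMulLog (μ.real (e ⁻¹' {none})) ≤ ε / (Fintype.card A + 1) := by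
    have h3 : {x | e x ≠ none} = (e ⁻¹' {none})ᶜ := by ext x; simp
    rw [h3, measureReal_compl (he none), probReal_univ] at hδ
    have h4 : μ.real (e ⁻¹' {none}) ≤ 1 := measureReal_le_one
    have h5 := h2 (x := μ.real (e ⁻¹' {none})) (by
      rw [Real.dist_eq, abs_sub_comm, abs_of_nonneg (by linarith)]
      linarith)
    rw [Real.dist_eq, Real.negMulLog_one, sub_zero] at h5
    exact (le_abs_self _).trans h5.le
  have hsome : ∀ a : A, Real.negMulLog (μ.real (e ⁻¹' {some a})) ≤ ε / (Fintype.card A + 1) := by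
    intro a
    have h4 : μ.real (e ⁻¹' {some a}) ≤ μ.real {x | e x ≠ none} := by
      apply measureReal_mono _ (measure_ne_top _ _)
      intro x hx
      simp only [mem_preimage, mem_singleton_iff] at hx
      show e x ≠ none
      rw [hx]
      exact Option.some_ne_none a
    have h6 : 0 ≤ μ.real (e ⁻¹' {some a}) := measureReal_nonneg
    have h5 := h1 (x := μ.real (e ⁻¹' {some a})) (by
      rw [Real.dist_eq, sub_zero, abs_of_nonneg h6]
      linarith)
    rw [Real.dist_eq, Real.negMulLog_zero, sub_zero] at h5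
    exact (le_abs_self _).trans h5.le
  calc Real.negMulLog (μ.real (e ⁻¹' {none})) + ∑ a, Real.negMulLog (μ.real (e ⁻¹' {some a}))
      ≤ ε / (Fintype.card A + 1) + ∑ _a : A, ε / (Fintype.card A + 1) :=
        add_le_add hnone (Finset.sum_le_sum fun a _ => hsome a)
    _ = (Fintype.card A + 1) * (ε / (Fintype.card A + 1)) := by
        rw [Finset.sum_const, Finset.card_univ, nsmul_eq_mul]; ring
    _ = ε := by field_simp
    _ ≤ ε := le_rfl

end Vale.Agent.P109.KS
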