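import Vale.Agent.P109.H787.Law
import Vale.Agent.P109.H787.Shannon
import Vale.Agent.P109.H787.SysLemmas

/-!
The entropy of a system over a tower is zero if `log (card (W j)) / H j` tends to `0`.
-/

open MeasureTheory Set Filter
open scoped ENNReal symmDiff

namespace Vale.Agent.P109

namespace GTower

namespace Sys

variable {𝒯 : GTower} (S : Sys 𝒯)

theorem div_lt_aux {H n t i : ℕ} (hH : 0 < H) (ht : t < H) (hi : i < n) :
    (t + i) / H < n / H + 2 := by
  have h1 : (t + i) / H ≤ (n + H) / H := Nat.div_le_div_right (by omega)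
  rw [Nat.add_div_right _ hH] at h1
  omega

theorem wd_iterate_block (J : ℕ) (x : S.X) (i : ℕ) :
    S.wd J (S.T^[i] x) = S.wd J (S.T^[(S.ph J x + i) / 𝒯.H J * 𝒯.H J] x) := by
  set H := 𝒯.H J with hH
  set t := S.ph J x with ht
  have hHpos : 0 < H := 𝒯.H_pos J
  have htlt : t < H := S.ph_lt J x
  set q := (t + i) / H with hq
  have h1 : q * H ≤ t + i := Nat.div_mul_le_self _ _
  have h2 : t + i < (q + 1) * H := by
    have h3 := Nat.mod_add_div (t + i) H
    have h4 := Nat.mod_lt (t + i) hHpos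
    rw [add_mul, one_mul, mul_comm q H, hq]
    omega
  rcases le_total (q * H) i with h | h
  · have h3 : S.ph J (S.T^[q * H] x) = t := by
      rw [S.ph_iterate_mod, Nat.add_mul_mod_self_right, Nat.mod_eq_of_lt htlt]
    have h4 : S.T^[i] x = S.T^[i - q * H] (S.T^[q * H] x) := by
      rw [← Function.iterate_add_apply, Nat.sub_add_cancel h]
    rw [h4]
    apply S.wd_iterate
    rw [h3]
    rw [add_mul, one_mul] at h2
    omega
  · have h3 : S.ph J (S.T^[i] x) = t + i - q * H := by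
      rw [S.ph_iterate_mod]
      have := Nat.mod_add_div (t + i) H
      have h5 : (t + i) % H = t + i - q * H := by
        rw [hq, mul_comm]; omega
      exact h5
    have h4 : S.T^[q * H] x = S.T^[q * H - i] (S.T^[i] x) := by
      rw [← Function.iterate_add_apply, Nat.sub_add_cancel h]
    rw [h4]
    symm
    apply S.wd_iterate
    rw [h3]
    omega

/-- Codings depending on phase and word of level `J`: the entropy of the names of length `n`. -/
theorem shannon_name_level (J : ℕ) {k : ℕ} (γ : ℕ → 𝒯.W J → Fin k) (n : ℕ) :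
    KS.shannon S.μ (KS.name S.T (fun x => γ (S.ph J x) (S.wd J x)) n) ≤
      Real.log (𝒯.H J) + ((n : ℝ) / 𝒯.H J + 2) * Real.log (Fintype.card (𝒯.W J)) := by
  classical
  set H := 𝒯.H J with hH
  have hHpos : 0 < H := 𝒯.H_pos J
  obtain ⟨F, hF1, hF2⟩ : ∃ F : S.X → Fin H × (Fin (n / H + 2) → 𝒯.W J),
      (∀ x, ((F x).1 : ℕ) = S.ph J x) ∧
      (∀ x q, (F x).2 q = S.wd J (S.T^[(q : ℕ) * H] x)) :=
    ⟨fun x => (⟨S.ph J x, S.ph_lt J x⟩, fun q => S.wd J (S.T^[(q : ℕ) * H] x)),
      fun _ => rfl, fun _ _ => rfl⟩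
  obtain ⟨φ, hφ⟩ : ∃ φ : Fin H × (Fin (n / H + 2) → 𝒯.W J) → (Fin n → Fin k),
      ∀ x, φ (F x) = KS.name S.T (fun x => γ (S.ph J x) (S.wd J x)) n x := by
    refine ⟨fun z i => γ ((z.1 + i) % H) (z.2 ⟨(z.1 + i) / H, div_lt_aux hHpos z.1.2 i.2⟩), ?_⟩
    intro x
    funext i
    show γ (((F x).1 + i) % H) ((F x).2 _) = γ (S.ph J (S.T^[i] x)) (S.wd J (S.T^[i] x))
    rw [hF2, S.ph_iterate_mod, S.wd_iterate_block J x i]
    simp only [hF1]
    rfl
  have hmeas : ∀ z, MeasurableSet (F ⁻¹' {z}) := by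
    intro z
    have h1 : F ⁻¹' {z} = {x | S.ph J x = z.1} ∩
        ⋂ q : Fin (n / H + 2), S.T^[(q : ℕ) * H] ⁻¹' {x | S.wd J x = z.2 q} := by
      ext x
      simp only [mem_preimage, mem_singleton_iff, mem_inter_iff, mem_ofPred_eq, mem_iInter]
      constructor
      · rintro rfl
        exact ⟨(hF1 x).symm, fun q => (hF2 x q).symm⟩
      · rintro ⟨h1, h2⟩
        refine Prod.ext (Fin.ext ((hF1 x).trans h1)) (funext fun q => (hF2 x q).trans (h2 q))
    rw [h1]
    refine (S.meas_ph J (measurableSet_singleton _)).inter (MeasurableSet.iInter fun q => ?_)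
    exact (S.T.measurable.iterate _) (S.meas_wd J _)
  have h1 : KS.name S.T (fun x => γ (S.ph J x) (S.wd J x)) n = fun x => φ (F x) :=
    funext fun x => (hφ x).symm
  rw [h1]
  refine (KS.shannon_comp_le hmeas φ).trans ((KS.shannon_le_log_card hmeas).trans ?_)
  have hcard : (0 : ℝ) < Fintype.card (𝒯.W J) := by exact_mod_cast Fintype.card_pos
  have hcard1 : (1 : ℝ) ≤ Fintype.card (𝒯.W J) := by exact_mod_cast Fintype.card_pos
  have hH0 : (0 : ℝ) < H := by exact_mod_cast hHpos
  rw [Fintype.card_prod, Fintype.card_fin, Fintype.card_fun, Fintype.card_fin, Nat.cast_mul,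
    Nat.cast_pow, Real.log_mul hH0.ne' (by positivity), Real.log_pow]
  have h2 : ((n / H + 2 : ℕ) : ℝ) ≤ (n : ℝ) / H + 2 := by
    push_cast
    have := @Nat.cast_div_le ℝ _ _ _ n H
    linarith
  have h3 : 0 ≤ Real.log (Fintype.card (𝒯.W J)) := Real.log_nonneg hcard1
  have h4 := mul_le_mul_of_nonneg_right h2 h3
  linarith

/-- Approximation of a coding by codings of level `j`. -/
theorem exists_coding {k : ℕ} {f : S.X → Fin k} (hf : Measurable f) {δ : ℝ} (hδ : 0 < δ) :
    ∃ j0, ∀ j, j0 ≤ j → ∃ γ : ℕ → 𝒯.W j → Fin k,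
      S.μ.real {x | f x ≠ γ (S.ph j x) (S.wd j x)} ≤ δ := by
  classical
  have hne : Nonempty S.X := nonempty_of_isProbabilityMeasure S.μ
  have hk : 0 < k := (f hne.some).pos
  have hk' : (0 : ℝ) < k := by exact_mod_cast hk
  have h1 : ∀ a : Fin k, ∃ j0, ∀ j, j0 ≤ j → ∃ B : Set (ℕ × 𝒯.W j),
      S.μ ((f ⁻¹' {a}) ∆ S.lev j B) < ENNReal.ofReal (δ / k) := fun a =>
    S.exists_lev _ (hf (measurableSet_singleton a)) (by positivity)
  choose j0 hj0 using h1
  refine ⟨Finset.univ.sup j0, fun j hj => ?_⟩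
  have h2 : ∀ a : Fin k, ∃ B : Set (ℕ × 𝒯.W j),
      S.μ ((f ⁻¹' {a}) ∆ S.lev j B) < ENNReal.ofReal (δ / k) := fun a =>
    hj0 a j ((Finset.le_sup (Finset.mem_univ a)).trans hj)
  choose B hB using h2
  refine ⟨fun t w => if h : ∃ a, (t, w) ∈ B a then h.choose else f hne.some, ?_⟩
  have h3 : {x | f x ≠ (if h : ∃ a, (S.ph j x, S.wd j x) ∈ B a then h.choose else f hne.some)} ⊆
      ⋃ a ∈ (Finset.univ : Finset (Fin k)), ((f ⁻¹' {a}) ∆ S.lev j (B a)) := by
    intro x hx
    by_contra hcon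
    simp only [mem_iUnion, Finset.mem_univ, exists_prop, true_and, not_exists] at hcon
    have h4 : ∀ a, (f x = a ↔ (S.ph j x, S.wd j x) ∈ B a) := by
      intro a
      have h5 := hcon a
      rw [Set.mem_symmDiff] at h5
      simp only [mem_preimage, mem_singleton_iff, lev, mem_ofPred_eq] at h5
      tauto
    apply hx
    have h6 : ∃ a, (S.ph j x, S.wd j x) ∈ B a := ⟨f x, (h4 (f x)).1 rfl⟩
    rw [dif_pos h6]
    exact (h4 _).2 h6.choose_spec
  calc S.μ.real {x | f x ≠ (if h : ∃ a, (S.ph j x, S.wd j x) ∈ B a then h.choose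
        else f hne.some)}
      ≤ S.μ.real (⋃ a ∈ (Finset.univ : Finset (Fin k)), ((f ⁻¹' {a}) ∆ S.lev j (B a))) :=
        measureReal_mono h3 (measure_ne_top _ _)
    _ ≤ ∑ a : Fin k, S.μ.real ((f ⁻¹' {a}) ∆ S.lev j (B a)) :=
        measureReal_biUnion_finset_le _ _
    _ ≤ ∑ _a : Fin k, δ / k := by
        refine Finset.sum_le_sum fun a _ => ?_
        rw [measureReal_def]
        exact ENNReal.toReal_le_of_le_ofReal (by positivity) (hB a).le
    _ = δ := by
        rw [Finset.sum_const, Finset.card_univ, Fintype.card_fin, nsmul_eq_mul]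
        field_simp

/-- The entropy of names grows slowly. -/
theorem shannon_name_small
    (h : Tendsto (fun j => Real.log (Fintype.card (𝒯.W j)) / 𝒯.H j) atTop (nhds 0))
    {k : ℕ} {f : S.X → Fin k} (hf : Measurable f) {ε : ℝ} (hε : 0 < ε) :
    ∀ᶠ n : ℕ in atTop, KS.shannon S.μ (KS.name S.T f n) / n ≤ ε := by
  classical
  obtain ⟨δ, hδ, hsmall⟩ := KS.exists_shannon_small (Fin k) (ε := ε / 3) (by positivity)
  obtain ⟨j0, hj0⟩ := S.exists_coding hf hδ
  have h1 : ∀ᶠ j in atTop, Real.log (Fintype.card (𝒯.W j)) / 𝒯.H j < ε / 3 :=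
    (tendsto_order.1 h).2 _ (by positivity)
  obtain ⟨J, hJ, hJ0⟩ := (h1.and (eventually_ge_atTop j0)).exists
  obtain ⟨γ, hγ⟩ := hj0 J hJ0
  -- the coding of level `J` and the error
  set g : S.X → Fin k := fun x => γ (S.ph J x) (S.wd J x) with hg
  have hgm : Measurable g := by
    refine measurable_to_countable' fun a => ?_
    have h2 : g ⁻¹' {a} = S.lev J {q | γ q.1 q.2 = a} := rfl
    rw [h2]
    exact S.measurableSet_lev J _
  have hgm' : ∀ a, MeasurableSet (g ⁻¹' {a}) := fun a => hgm (measurableSet_singleton a)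
  obtain ⟨e, he⟩ : ∃ e : S.X → Option (Fin k), ∀ x, e x = if f x = g x then none else some (f x) :=
    ⟨_, fun _ => rfl⟩
  have hd : MeasurableSet {x | f x = g x} := measurableSet_eq_fun hf hgm
  have hem : ∀ a, MeasurableSet (e ⁻¹' {a}) := by
    intro a
    cases a with
    | none =>
      have h2 : e ⁻¹' {none} = {x | f x = g x} := by
        ext x
        simp only [mem_preimage, mem_singleton_iff, he, mem_ofPred_eq]
        by_cases hx : f x = g x <;> simp [hx]
      rw [h2]; exact hd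
    | some a =>
      have h2 : e ⁻¹' {some a} = {x | f x = g x}ᶜ ∩ f ⁻¹' {a} := by
        ext x
        simp only [mem_preimage, mem_singleton_iff, he, mem_ofPred_eq, mem_inter_iff, mem_compl_iff]
        by_cases hx : f x = g x <;> simp [hx]
      rw [h2]
      exact hd.compl.inter (hf (measurableSet_singleton a))
  have he1 : KS.shannon S.μ e ≤ ε / 3 := by
    apply hsmall S.X S.μ e hem
    refine le_trans (le_of_eq ?_) hγ
    congr 1
    ext x
    simp only [he, mem_ofPred_eq, hg]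
    by_cases hx : f x = γ (S.ph J x) (S.wd J x) <;> simp [hx]
  have hbound : ∀ n : ℕ, KS.shannon S.μ (KS.name S.T f n) ≤
      (Real.log (𝒯.H J) + ((n : ℝ) / 𝒯.H J + 2) * Real.log (Fintype.card (𝒯.W J))) +
        n * (ε / 3) := by
    intro n
    obtain ⟨ψ, hψ⟩ : ∃ ψ : (Fin n → Fin k) × (Fin n → Option (Fin k)) → (Fin n → Fin k),
        ∀ x, ψ (KS.name S.T g n x, KS.name S.T e n x) = KS.name S.T f n x := by
      refine ⟨fun z i => (z.2 i).getD (z.1 i), fun x => ?_⟩
      funext i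
      show (e (S.T^[i] x)).getD (g (S.T^[i] x)) = f (S.T^[i] x)
      rw [he]
      by_cases hx : f (S.T^[i] x) = g (S.T^[i] x)
      · rw [if_pos hx]; exact hx.symm
      · rw [if_neg hx]; rfl
    have h2 : KS.name S.T f n = fun x => ψ (KS.name S.T g n x, KS.name S.T e n x) :=
      funext fun x => (hψ x).symm
    have hgn := KS.measurableSet_name S.T.measurable hgm' n
    have hen := KS.measurableSet_name S.T.measurable hem n
    have h3 : ∀ z : (Fin n → Fin k) × (Fin n → Option (Fin k)),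
        MeasurableSet ((fun x => (KS.name S.T g n x, KS.name S.T e n x)) ⁻¹' {z}) := by
      intro z
      have h4 : (fun x => (KS.name S.T g n x, KS.name S.T e n x)) ⁻¹' {z} =
          KS.name S.T g n ⁻¹' {z.1} ∩ KS.name S.T e n ⁻¹' {z.2} := by
        ext x
        simp [Prod.ext_iff]
      rw [h4]
      exact (hgn z.1).inter (hen z.2)
    have h4 : KS.shannon S.μ (fun x => ψ (KS.name S.T g n x, KS.name S.T e n x)) ≤
        KS.shannon S.μ (fun x => (KS.name S.T g n x, KS.name S.T e n x)) :=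
      KS.shannon_comp_le (F := fun x => (KS.name S.T g n x, KS.name S.T e n x)) h3 ψ
    have h5 : KS.shannon S.μ (fun x => (KS.name S.T g n x, KS.name S.T e n x)) ≤
        KS.shannon S.μ (KS.name S.T g n) + KS.shannon S.μ (KS.name S.T e n) :=
      KS.shannon_prod_le (F := KS.name S.T g n) (G := KS.name S.T e n) hgn hen
    have h6 := S.shannon_name_level J γ n
    have h7 : KS.shannon S.μ (KS.name S.T e n) ≤ n * KS.shannon S.μ e :=
      KS.shannon_name_le S.mp hem n
    have h8 : (n : ℝ) * KS.shannon S.μ e ≤ n * (ε / 3) :=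
      mul_le_mul_of_nonneg_left he1 (Nat.cast_nonneg n)
    rw [h2]
    linarith
  have hlim : Tendsto (fun n : ℕ =>
      (Real.log (𝒯.H J) + 2 * Real.log (Fintype.card (𝒯.W J))) / (n : ℝ)) atTop (nhds 0) :=
    tendsto_const_div_atTop_nhds_zero_nat _
  have h9 : ∀ᶠ n : ℕ in atTop,
      (Real.log (𝒯.H J) + 2 * Real.log (Fintype.card (𝒯.W J))) / (n : ℝ) < ε / 3 :=
    (tendsto_order.1 hlim).2 _ (by positivity)
  filter_upwards [h9, eventually_gt_atTop 0] with n hn hn0
  have hn0' : (0 : ℝ) < n := by exact_mod_cast hn0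
  have hH0 : (0 : ℝ) < 𝒯.H J := by exact_mod_cast 𝒯.H_pos J
  rw [div_lt_iff₀ hn0'] at hn
  rw [div_lt_iff₀ hH0] at hJ
  rw [div_le_iff₀ hn0']
  refine (hbound n).trans ?_
  have h10 : (n : ℝ) / 𝒯.H J * Real.log (Fintype.card (𝒯.W J)) ≤ n * (ε / 3) := by
    calc (n : ℝ) / 𝒯.H J * Real.log (Fintype.card (𝒯.W J)) ≤ (n : ℝ) / 𝒯.H J * (ε / 3 * 𝒯.H J) :=
          mul_le_mul_of_nonneg_left hJ.le (by positivity)
      _ = n * (ε / 3) := by field_simp
  linarith

/-- The entropy of the system is zero. -/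
theorem ksEntropy_eq_zero
    (h : Tendsto (fun j => Real.log (Fintype.card (𝒯.W j)) / 𝒯.H j) atTop (nhds 0)) :
    KS.ksEntropy S.μ S.T = 0 := by
  unfold KS.ksEntropy
  simp only [ENNReal.iSup_eq_zero]
  intro k f hf
  refine le_antisymm ?_ bot_le
  change limsup (fun n : ℕ => ENNReal.ofReal (KS.shannon S.μ (KS.name S.T f n) / n)) atTop ≤
    (0 : ℝ≥0∞)
  apply ENNReal.le_of_forall_pos_le_add
  intro ε hε _
  rw [zero_add]
  refine limsup_le_of_le (by isBoundedDefault) ?_
  filter_upwards [S.shannon_name_small h hf (ε := ε) (by exact_mod_cast hε)] with n hn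
  calc ENNReal.ofReal (KS.shannon S.μ (KS.name S.T f n) / n) ≤ ENNReal.ofReal ε :=
        ENNReal.ofReal_le_ofReal hn
    _ = ε := ENNReal.ofReal_coe_nnreal

end Sys

end GTower

end Vale.Agent.P109
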