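import Vale.Agent.P109.H787.Law
import Mathlib.Tactic.Linarith
import Mathlib.Tactic.FieldSimp
import Mathlib.Tactic.Ring

/-!
Ergodicity of a system over a tower with infinitely many independent levels.
-/

open MeasureTheory Set
open scoped ENNReal symmDiff

namespace Vale.Agent.P109

namespace GTower

/-- Sum over the positions in a block. -/
theorem sum_range_pos (𝒯 : GTower) (j : ℕ) (f : Fin (𝒯.m j) → ℝ) :
    ∑ t ∈ Finset.range (𝒯.H (j + 1)), f (𝒯.pos j t) = 𝒯.H j * ∑ c, f c := by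
  rw [H_succ, Finset.sum_range, ← finProdFinEquiv.sum_comp, Fintype.sum_prod_type, Finset.mul_sum]
  refine Finset.sum_congr rfl fun c _ => ?_
  rw [Finset.sum_congr rfl (g := fun _ => f c)]
  · simp
  · intro t _
    congr 1
    have := 𝒯.pos_add j t c t.2
    rw [mul_comm] at this
    exact this

open Classical in
/-- Combinatorial core of ergodicity. -/
theorem core (𝒯 : GTower) (j : ℕ) (hI : 𝒯.Indep j) (R : Set (𝒯.W j)) (R' : Set (𝒯.W (j + 1)))
    {η : ℝ}
    (h : ∑ c, ((Finset.univ.filter (fun u : 𝒯.W (j + 1) =>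
      ¬ (𝒯.part j u c ∈ R ↔ u ∈ R'))).card : ℝ) ≤ η * (𝒯.m j * Fintype.card (𝒯.W (j + 1)))) :
    ((Finset.univ.filter (· ∈ R)).card / Fintype.card (𝒯.W j) : ℝ) *
      (1 - (Finset.univ.filter (· ∈ R)).card / Fintype.card (𝒯.W j)) ≤ 2 * η := by
  obtain ⟨PP, hPP, hind⟩ := hI
  set n : Fin (𝒯.m j) → ℝ := fun c => ((Finset.univ.filter (fun u : 𝒯.W (j + 1) =>
      ¬ (𝒯.part j u c ∈ R ↔ u ∈ R'))).card : ℝ) with hn
  set N : ℝ := ((Fintype.card (𝒯.W j) : ℕ) : ℝ) with hN
  set N' : ℝ := ((Fintype.card (𝒯.W (j + 1)) : ℕ) : ℝ) with hN'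
  set r : ℝ := (((Finset.univ.filter (· ∈ R)).card : ℕ) : ℝ) with hr
  have hNpos : 0 < N := by rw [hN]; exact_mod_cast Fintype.card_pos
  have hN'pos : 0 < N' := by rw [hN']; exact_mod_cast Fintype.card_pos
  have hm : (0 : ℝ) < 𝒯.m j := by exact_mod_cast 𝒯.m_pos j
  -- the number of words whose parts at `c`, `c'` are on different sides
  have h1 : ∀ q ∈ PP, 2 * (r * (N - r)) * N' ≤ (n q.1 + n q.2) * N ^ 2 := by
    intro q hq
    have hsub : (Finset.univ.filter (fun u : 𝒯.W (j + 1) =>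
        ¬ (𝒯.part j u q.1 ∈ R ↔ 𝒯.part j u q.2 ∈ R))) ⊆
        (Finset.univ.filter (fun u : 𝒯.W (j + 1) => ¬ (𝒯.part j u q.1 ∈ R ↔ u ∈ R'))) ∪
        (Finset.univ.filter (fun u : 𝒯.W (j + 1) => ¬ (𝒯.part j u q.2 ∈ R ↔ u ∈ R'))) := by
      intro u hu
      simp only [Finset.mem_filter, Finset.mem_univ, true_and, Finset.mem_union] at hu ⊢
      by_contra hcon
      rw [not_or, not_not, not_not] at hcon
      exact hu (hcon.1.trans hcon.2.symm)
    have hle : ((Finset.univ.filter (fun u : 𝒯.W (j + 1) =>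
        ¬ (𝒯.part j u q.1 ∈ R ↔ 𝒯.part j u q.2 ∈ R))).card : ℝ) ≤ n q.1 + n q.2 := by
      have := (Finset.card_le_card hsub).trans (Finset.card_union_le _ _)
      simp only [hn]
      exact_mod_cast this
    have hcount : ((Finset.univ.filter (fun u : 𝒯.W (j + 1) =>
        ¬ (𝒯.part j u q.1 ∈ R ↔ 𝒯.part j u q.2 ∈ R))).card : ℝ) * N ^ 2 =
        2 * (r * (N - r)) * N' := by
      have e1 : ((Finset.univ.filter (fun u : 𝒯.W (j + 1) =>
          ¬ (𝒯.part j u q.1 ∈ R ↔ 𝒯.part j u q.2 ∈ R))).card : ℝ) =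
          ∑ z ∈ (Finset.univ : Finset (𝒯.W j × 𝒯.W j)).filter (fun z => ¬ (z.1 ∈ R ↔ z.2 ∈ R)),
            (Nat.card {u : 𝒯.W (j + 1) // 𝒯.part j u q.1 = z.1 ∧ 𝒯.part j u q.2 = z.2} : ℝ) := by
        rw [← Nat.cast_sum, Nat.cast_inj]
        rw [Finset.card_eq_sum_card_fiberwise (f := fun u : 𝒯.W (j + 1) =>
          (𝒯.part j u q.1, 𝒯.part j u q.2))
          (t := (Finset.univ : Finset (𝒯.W j × 𝒯.W j)).filter (fun z => ¬ (z.1 ∈ R ↔ z.2 ∈ R)))]
        · refine Finset.sum_congr rfl fun z hz => ?_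
          rw [Nat.card_eq_fintype_card, Fintype.card_subtype]
          congr 1
          ext u
          simp only [Finset.mem_filter, Finset.mem_univ, true_and] at hz ⊢
          constructor
          · rintro ⟨_, h⟩
            exact ⟨congrArg Prod.fst h, congrArg Prod.snd h⟩
          · rintro ⟨h1, h2⟩
            exact ⟨by rw [h1, h2]; exact hz, Prod.ext h1 h2⟩
        · intro u hu
          simpa using hu
      have e2 : ((((Finset.univ : Finset (𝒯.W j × 𝒯.W j)).filter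
          (fun z => ¬ (z.1 ∈ R ↔ z.2 ∈ R))).card : ℕ) : ℝ) = 2 * (r * (N - r)) := by
        have e3 : (Finset.univ : Finset (𝒯.W j × 𝒯.W j)).filter (fun z => ¬ (z.1 ∈ R ↔ z.2 ∈ R)) =
            (Finset.univ.filter (· ∈ R)) ×ˢ (Finset.univ.filter (· ∈ R))ᶜ ∪
            (Finset.univ.filter (· ∈ R))ᶜ ×ˢ (Finset.univ.filter (· ∈ R)) := by
          ext z
          simp only [Finset.mem_filter, Finset.mem_univ, true_and, Finset.mem_union,
            Finset.mem_product, Finset.mem_compl]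
          tauto
        rw [e3, Finset.card_union_of_disjoint, Finset.card_product, Finset.card_product,
          Finset.card_compl]
        · rw [Nat.cast_add, Nat.cast_mul, Nat.cast_mul, Nat.cast_sub (Finset.card_le_univ _)]
          rw [← hN, ← hr]
          ring
        · rw [Finset.disjoint_left]
          intro z hz hz'
          simp only [Finset.mem_product, Finset.mem_compl, Finset.mem_filter, Finset.mem_univ,
            true_and] at hz hz'
          exact hz'.1 hz.1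
      rw [e1, ← e2, Finset.sum_mul, Finset.card_eq_sum_ones, Nat.cast_sum, Finset.sum_mul]
      refine Finset.sum_congr rfl fun z _ => ?_
      have := hind q hq z.1 z.2
      rw [hN, hN', ← this]
      push_cast
      ring
    rw [← hcount]
    exact mul_le_mul_of_nonneg_right hle (by positivity)
  -- sum over the pairs
  have hn0 : ∀ c, 0 ≤ n c := fun c => Nat.cast_nonneg _
  have h2 : (PP.card : ℝ) * (2 * (r * (N - r)) * N') ≤ 2 * 𝒯.m j * (∑ c, n c) * N ^ 2 := by
    calc (PP.card : ℝ) * (2 * (r * (N - r)) * N') = ∑ q ∈ PP, 2 * (r * (N - r)) * N' := by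
          rw [Finset.sum_const, nsmul_eq_mul]
      _ ≤ ∑ q ∈ PP, (n q.1 + n q.2) * N ^ 2 := Finset.sum_le_sum h1
      _ ≤ ∑ q : Fin (𝒯.m j) × Fin (𝒯.m j), (n q.1 + n q.2) * N ^ 2 := by
          apply Finset.sum_le_sum_of_subset_of_nonneg (Finset.subset_univ _)
          intro q _ _
          have := hn0 q.1
          have := hn0 q.2
          positivity
      _ = 2 * 𝒯.m j * (∑ c, n c) * N ^ 2 := by
          rw [← Finset.sum_mul, Fintype.sum_prod_type]
          congr 1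
          simp only [Finset.sum_add_distrib, Finset.sum_const, Finset.card_univ, Fintype.card_fin,
            nsmul_eq_mul, ← Finset.mul_sum]
          ring
  have hrN : r ≤ N := by
    rw [hr, hN]; exact_mod_cast Finset.card_le_univ _
  have hr0 : 0 ≤ r := Nat.cast_nonneg _
  have h3 : ((𝒯.m j : ℝ)) ^ 2 ≤ 2 * PP.card := by exact_mod_cast hPP
  have h4 : (𝒯.m j : ℝ) ^ 2 * (r * (N - r) * N') ≤
      2 * 𝒯.m j * (η * (𝒯.m j * N')) * N ^ 2 := by
    have h5 : 0 ≤ r * (N - r) * N' := by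
      have : 0 ≤ N - r := by linarith
      positivity
    calc (𝒯.m j : ℝ) ^ 2 * (r * (N - r) * N') ≤ (2 * PP.card) * (r * (N - r) * N') :=
          mul_le_mul_of_nonneg_right h3 h5
      _ = (PP.card : ℝ) * (2 * (r * (N - r)) * N') := by ring
      _ ≤ 2 * 𝒯.m j * (∑ c, n c) * N ^ 2 := h2
      _ ≤ 2 * 𝒯.m j * (η * (𝒯.m j * N')) * N ^ 2 := by
          have : ∑ c, n c ≤ η * (𝒯.m j * N') := h
          gcongr
  have h6 : r * (N - r) ≤ 2 * η * N ^ 2 := by
    have h7 : (𝒯.m j : ℝ) ^ 2 * N' * (r * (N - r)) ≤ (𝒯.m j : ℝ) ^ 2 * N' * (2 * η * N ^ 2) := by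
      calc (𝒯.m j : ℝ) ^ 2 * N' * (r * (N - r)) = (𝒯.m j : ℝ) ^ 2 * (r * (N - r) * N') := by ring
        _ ≤ 2 * 𝒯.m j * (η * (𝒯.m j * N')) * N ^ 2 := h4
        _ = _ := by ring
    exact le_of_mul_le_mul_left h7 (by positivity)
  have h8 : r / N * (1 - r / N) = r * (N - r) / N ^ 2 := by
    field_simp
  rw [h8, div_le_iff₀ (by positivity)]
  exact h6

namespace Sys

variable {𝒯 : GTower} (S : Sys 𝒯)

theorem measurableSet_words (j : ℕ) (R : Set (𝒯.W j)) : MeasurableSet {x | S.wd j x ∈ R} :=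
  S.measurableSet_lev j {q | q.2 ∈ R}

open Classical in
theorem measure_words (j : ℕ) (R : Set (𝒯.W j)) :
    S.μ.real {x | S.wd j x ∈ R} = (Finset.univ.filter (· ∈ R)).card / Fintype.card (𝒯.W j) := by
  have h1 : {x | S.wd j x ∈ R} = S.lev j {q | q.2 ∈ R} := rfl
  rw [h1, measure_lev]
  have h2 : (Finset.range (𝒯.H j) ×ˢ Finset.univ).filter (fun q : ℕ × 𝒯.W j => q ∈ {q | q.2 ∈ R}) =
      Finset.range (𝒯.H j) ×ˢ (Finset.univ.filter (· ∈ R)) := by
    ext q
    simp
  rw [h2, Finset.card_product, Finset.card_range, Nat.cast_mul]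
  have := 𝒯.H_pos j
  rw [mul_div_mul_left]
  positivity

/-- For large `j` an invariant event is close to an event depending on the word of level `j`. -/
theorem exists_words (B : Set S.X) (hB : MeasurableSet B) (hinv : S.T ⁻¹' B = B) {ε : ℝ}
    (hε : 0 < ε) :
    ∃ j0, ∀ j, j0 ≤ j → ∃ R : Set (𝒯.W j), S.μ.real (B ∆ {x | S.wd j x ∈ R}) ≤ ε := by
  obtain ⟨j0, h0⟩ := S.exists_lev B hB hε
  refine ⟨j0, fun j hj => ?_⟩
  obtain ⟨Q, hQ⟩ := h0 j hj
  have hQ' : S.μ.real (B ∆ S.lev j Q) ≤ ε := by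
    rw [measureReal_def]
    exact ENNReal.toReal_le_of_le_ofReal hε.le hQ.le
  have hE0 : MeasurableSet (B ∆ S.lev j Q) := hB.symmDiff (S.measurableSet_lev j Q)
  have hH : (0 : ℝ) < 𝒯.H j := by exact_mod_cast 𝒯.H_pos j
  obtain ⟨t0, ht0, ht1⟩ : ∃ t0, t0 < 𝒯.H j ∧
      𝒯.H j * S.μ.real ((B ∆ S.lev j Q) ∩ {x | S.ph j x = t0}) ≤ S.μ.real (B ∆ S.lev j Q) := by
    by_contra hcon
    push Not at hcon
    have h1 : ∑ t ∈ Finset.range (𝒯.H j), S.μ.real (B ∆ S.lev j Q) <
        ∑ t ∈ Finset.range (𝒯.H j),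
          𝒯.H j * S.μ.real ((B ∆ S.lev j Q) ∩ {x | S.ph j x = t}) := by
      apply Finset.sum_lt_sum_of_nonempty
      · exact ⟨0, Finset.mem_range.2 (𝒯.H_pos j)⟩
      · intro t ht
        exact hcon t (Finset.mem_range.1 ht)
    rw [← Finset.mul_sum, ← S.measure_eq_sum j hE0] at h1
    simp at h1
  refine ⟨{w | (t0, w) ∈ Q}, ?_⟩
  have hmeas : MeasurableSet (B ∆ {x | S.wd j x ∈ {w | (t0, w) ∈ Q}}) :=
    hB.symmDiff (S.measurableSet_words j _)
  rw [S.measure_eq_slice (j := j) hmeas ?_ ht0]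
  · have h2 : B ∆ {x | S.wd j x ∈ {w | (t0, w) ∈ Q}} ∩ {x | S.ph j x = t0} =
        (B ∆ S.lev j Q) ∩ {x | S.ph j x = t0} := by
      ext x
      simp only [mem_inter_iff, Set.mem_symmDiff, mem_ofPred_eq, lev]
      constructor
      · rintro ⟨h1, rfl⟩; exact ⟨h1, rfl⟩
      · rintro ⟨h1, rfl⟩; exact ⟨h1, rfl⟩
    rw [h2]
    exact ht1.trans hQ'
  · intro x hx
    have h1 : S.T x ∈ B ↔ x ∈ B := by
      conv_rhs => rw [← hinv]
      rfl
    simp only [Set.mem_symmDiff, mem_ofPred_eq, h1, S.wd_T j x hx]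

/-- A system over a tower with infinitely many independent levels is ergodic. -/
theorem ergodic (h : ∀ n, ∃ j, n ≤ j ∧ 𝒯.Indep j) : Ergodic S.T S.μ := by
  classical
  refine ⟨S.mp, ⟨fun B hB hinv => ?_⟩⟩
  have key : ∀ ε : ℝ, 0 < ε → S.μ.real B * (1 - S.μ.real B) ≤ 5 * ε := by
    intro ε hε
    obtain ⟨j0, h0⟩ := S.exists_words B hB hinv hε
    obtain ⟨j, hj, hI⟩ := h j0
    obtain ⟨R, hR⟩ := h0 j hj
    obtain ⟨R', hR'⟩ := h0 (j + 1) (by omega)
    have h1 : S.μ.real ({x | S.wd j x ∈ R} ∆ {x | S.wd (j + 1) x ∈ R'}) ≤ 2 * ε := by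
      calc S.μ.real ({x | S.wd j x ∈ R} ∆ {x | S.wd (j + 1) x ∈ R'})
          ≤ S.μ.real (({x | S.wd j x ∈ R} ∆ B) ∪ (B ∆ {x | S.wd (j + 1) x ∈ R'})) := by
            apply measureReal_mono (symmDiff_triangle _ _ _)
        _ ≤ S.μ.real ({x | S.wd j x ∈ R} ∆ B) + S.μ.real (B ∆ {x | S.wd (j + 1) x ∈ R'}) :=
            measureReal_union_le _ _
        _ ≤ ε + ε := by
            rw [symmDiff_comm]
            exact add_le_add hR hR'
        _ = 2 * ε := by ring
    have h2 : {x | S.wd j x ∈ R} ∆ {x | S.wd (j + 1) x ∈ R'} =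
        S.lev (j + 1) {q | ¬ (𝒯.part j q.2 (𝒯.pos j q.1) ∈ R ↔ q.2 ∈ R')} := by
      ext x
      simp only [Set.mem_symmDiff, lev, mem_ofPred_eq, ← S.wd_part]
      tauto
    have h3 := 𝒯.core j hI R R' (η := 2 * ε) (by
      obtain ⟨Q, hQ⟩ : ∃ Q : Set (ℕ × 𝒯.W (j + 1)),
        Q = {q | ¬ (𝒯.part j q.2 (𝒯.pos j q.1) ∈ R ↔ q.2 ∈ R')} := ⟨_, rfl⟩
      rw [h2, ← hQ, measure_lev] at h1
      have h4 : (((Finset.range (𝒯.H (j + 1)) ×ˢ Finset.univ).filter
          (fun q : ℕ × 𝒯.W (j + 1) => q ∈ Q)).card : ℝ) =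
          𝒯.H j * ∑ c, ((Finset.univ.filter (fun u : 𝒯.W (j + 1) =>
            ¬ (𝒯.part j u c ∈ R ↔ u ∈ R'))).card : ℝ) := by
        rw [← 𝒯.sum_range_pos j (fun c => ((Finset.univ.filter (fun u : 𝒯.W (j + 1) =>
            ¬ (𝒯.part j u c ∈ R ↔ u ∈ R'))).card : ℝ)), ← Nat.cast_sum, Nat.cast_inj,
          Finset.card_filter, Finset.sum_product]
        refine Finset.sum_congr rfl fun t _ => ?_
        rw [Finset.card_filter]
        refine Finset.sum_congr rfl fun u _ => ?_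
        have h5 : (t, u) ∈ Q ↔ ¬ (𝒯.part j u (𝒯.pos j t) ∈ R ↔ u ∈ R') := by rw [hQ]; rfl
        simp only [h5]
      rw [h4, H_succ] at h1
      have hH : (0 : ℝ) < 𝒯.H j := by exact_mod_cast 𝒯.H_pos j
      have hm : (0 : ℝ) < 𝒯.m j := by exact_mod_cast 𝒯.m_pos j
      have hN : (0 : ℝ) < Fintype.card (𝒯.W (j + 1)) := by exact_mod_cast Fintype.card_pos
      rw [Nat.cast_mul, div_le_iff₀ (by positivity)] at h1
      have h5 : (𝒯.H j : ℝ) * ∑ c, ((Finset.univ.filter (fun u : 𝒯.W (j + 1) =>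
            ¬ (𝒯.part j u c ∈ R ↔ u ∈ R'))).card : ℝ) ≤
          𝒯.H j * (2 * ε * (𝒯.m j * Fintype.card (𝒯.W (j + 1)))) := by
        refine h1.trans (le_of_eq ?_)
        ring
      exact le_of_mul_le_mul_left h5 hH)
    rw [← S.measure_words j R] at h3
    set a := S.μ.real B with ha
    set b := S.μ.real {x | S.wd j x ∈ R} with hb
    have h6 : |a - b| ≤ ε := by
      have h7 : a ≤ b + ε := by
        calc a ≤ S.μ.real ({x | S.wd j x ∈ R} ∪ (B ∆ {x | S.wd j x ∈ R})) := by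
              apply measureReal_mono _ (measure_ne_top _ _)
              intro x hx
              by_cases h : x ∈ {x | S.wd j x ∈ R}
              · exact Or.inl h
              · exact Or.inr (Or.inl ⟨hx, h⟩)
          _ ≤ b + S.μ.real (B ∆ {x | S.wd j x ∈ R}) := measureReal_union_le _ _
          _ ≤ b + ε := by linarith
      have h8 : b ≤ a + ε := by
        calc b ≤ S.μ.real (B ∪ (B ∆ {x | S.wd j x ∈ R})) := by
              apply measureReal_mono _ (measure_ne_top _ _)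
              intro x hx
              by_cases h : x ∈ B
              · exact Or.inl h
              · exact Or.inr (Or.inr ⟨hx, h⟩)
          _ ≤ a + S.μ.real (B ∆ {x | S.wd j x ∈ R}) := measureReal_union_le _ _
          _ ≤ a + ε := by linarith
      rw [abs_le]
      constructor <;> linarith
    have ha0 : 0 ≤ a := measureReal_nonneg
    have ha1 : a ≤ 1 := measureReal_le_one
    have hb0 : 0 ≤ b := measureReal_nonneg
    have hb1 : b ≤ 1 := measureReal_le_one
    have h9 : a * (1 - a) - b * (1 - b) = (a - b) * (1 - a - b) := by ring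
    have h10 : |(a - b) * (1 - a - b)| ≤ ε * 1 := by
      rw [abs_mul]
      apply mul_le_mul h6 _ (abs_nonneg _) hε.le
      rw [abs_le]
      constructor <;> linarith
    have h11 := (abs_le.1 h10).2
    linarith
  have h0 : S.μ.real B * (1 - S.μ.real B) ≤ 0 := by
    apply le_of_forall_pos_le_add
    intro ε hε
    have := key (ε / 5) (by positivity)
    linarith
  have ha0 : 0 ≤ S.μ.real B := measureReal_nonneg
  have ha1 : S.μ.real B ≤ 1 := measureReal_le_one
  have h1 : S.μ.real B = 0 ∨ S.μ.real B = 1 := by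
    have h2 : S.μ.real B * (1 - S.μ.real B) = 0 :=
      le_antisymm h0 (mul_nonneg ha0 (by linarith))
    rcases mul_eq_zero.1 h2 with h | h
    · exact Or.inl h
    · right; linarith
  rw [Filter.eventuallyConst_set']
  rcases h1 with h1 | h1
  · left
    rw [ae_eq_empty]
    rw [measureReal_eq_zero_iff] at h1
    exact h1
  · right
    rw [ae_eq_univ, prob_compl_eq_zero_iff hB]
    rw [measureReal_def, ENNReal.toReal_eq_one_iff] at h1
    exact h1

end Sys

end GTower

end Vale.Agent.P109
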