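import Vale.Agent.P109.H787.GTower
import Mathlib.Data.Nat.Find

/-!
The adic transformation over a tower of word spaces, as a bijection of a product of finite sets.
-/

namespace Vale.Agent.P109

namespace GTower

variable (𝒯 : GTower)

/-- enumeration of the words with given part at position `c` -/
noncomputable def cp (j : ℕ) (c : Fin (𝒯.m j)) (w : 𝒯.W j) :
    Fin (𝒯.p j) ≃ {u : 𝒯.W (j + 1) // 𝒯.part j u c = w} :=
  (Nat.equivFinOfCardPos (by rw [𝒯.count j c w]; exact (𝒯.p_pos j).ne')).symm.trans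
    (Equiv.refl _) |> fun e => (finCongr (𝒯.count j c w).symm).trans e

/-- The space: the word of level `0` and, for every `j`, the position of the word of level `j` in
the word of level `j + 1` and the number of the latter. -/
abbrev X : Type := 𝒯.W 0 × (∀ j, Fin (𝒯.m j) × Fin (𝒯.p j))

variable {𝒯}

/-- the phase at level `j` -/
def ph : ℕ → 𝒯.X → ℕ
  | 0, _ => 0
  | j + 1, x => ph j x + (x.2 j).1 * 𝒯.H j

/-- the word of level `j` -/
noncomputable def wd : (j : ℕ) → 𝒯.X → 𝒯.W j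
  | 0, x => x.1
  | j + 1, x => (𝒯.cp j (x.2 j).1 (wd j x) (x.2 j).2).1

theorem ph_succ (j : ℕ) (x : 𝒯.X) : ph (j + 1) x = ph j x + (x.2 j).1 * 𝒯.H j := rfl

theorem wd_succ (j : ℕ) (x : 𝒯.X) :
    wd (j + 1) x = (𝒯.cp j (x.2 j).1 (wd j x) (x.2 j).2).1 := rfl

theorem ph_lt (j : ℕ) (x : 𝒯.X) : ph j x < 𝒯.H j := by
  induction j with
  | zero => exact Nat.one_pos
  | succ j ih =>
    rw [ph_succ, H_succ]
    calc ph j x + (x.2 j).1 * 𝒯.H j < 𝒯.H j + (x.2 j).1 * 𝒯.H j := Nat.add_lt_add_right ih _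
      _ = ((x.2 j).1 + 1) * 𝒯.H j := by ring
      _ ≤ 𝒯.m j * 𝒯.H j := Nat.mul_le_mul_right _ (x.2 j).1.2

theorem ph_succ_mod (j : ℕ) (x : 𝒯.X) : ph (j + 1) x % 𝒯.H j = ph j x := by
  rw [ph_succ, Nat.add_mul_mod_self_right, Nat.mod_eq_of_lt (ph_lt j x)]

theorem pos_ph_succ (j : ℕ) (x : 𝒯.X) : 𝒯.pos j (ph (j + 1) x) = (x.2 j).1 := by
  rw [ph_succ]; exact 𝒯.pos_add j _ _ (ph_lt j x)

theorem part_wd_succ (j : ℕ) (x : 𝒯.X) : 𝒯.part j (wd (j + 1) x) (x.2 j).1 = wd j x :=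
  (𝒯.cp j (x.2 j).1 (wd j x) (x.2 j).2).2

theorem wd_eq_part (j : ℕ) (x : 𝒯.X) :
    wd j x = 𝒯.part j (wd (j + 1) x) (𝒯.pos j (ph (j + 1) x)) := by
  rw [pos_ph_succ, part_wd_succ]

/-- Replace phase and word of level `j`. -/
noncomputable def splice : (j : ℕ) → ℕ → 𝒯.W j → 𝒯.X → 𝒯.X
  | 0, _, w, x => (w, x.2)
  | j + 1, t, u, x =>
    splice j (t % 𝒯.H j) (𝒯.part j u (𝒯.pos j t)) (x.1, Function.update x.2 j
      (𝒯.pos j t, (𝒯.cp j (𝒯.pos j t) (𝒯.part j u (𝒯.pos j t))).symm ⟨u, rfl⟩))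

theorem splice_succ (j t : ℕ) (u : 𝒯.W (j + 1)) (x : 𝒯.X) :
    splice (j + 1) t u x =
      splice j (t % 𝒯.H j) (𝒯.part j u (𝒯.pos j t)) (x.1, Function.update x.2 j
        (𝒯.pos j t, (𝒯.cp j (𝒯.pos j t) (𝒯.part j u (𝒯.pos j t))).symm ⟨u, rfl⟩)) := rfl

theorem splice_digit {j i : ℕ} (hij : j ≤ i) (t : ℕ) (w : 𝒯.W j) (x : 𝒯.X) :
    (splice j t w x).2 i = x.2 i := by
  induction j generalizing t x with
  | zero => rfl
  | succ j ih =>
    rw [splice_succ, ih (by omega)]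
    exact Function.update_of_ne (by omega) _ _

theorem ph_wd_splice {j t : ℕ} (ht : t < 𝒯.H j) (w : 𝒯.W j) (x : 𝒯.X) :
    ph j (splice j t w x) = t ∧ wd j (splice j t w x) = w := by
  induction j generalizing t x with
  | zero =>
    constructor
    · rw [H_zero, Nat.lt_one_iff] at ht
      rw [ht]; rfl
    · rfl
  | succ j ih =>
    have hd : (splice (j + 1) t w x).2 j =
        (𝒯.pos j t, (𝒯.cp j (𝒯.pos j t) (𝒯.part j w (𝒯.pos j t))).symm ⟨w, rfl⟩) := by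
      rw [splice_succ, splice_digit le_rfl]
      exact Function.update_self _ _ _
    obtain ⟨h1, h2⟩ := ih (Nat.mod_lt t (𝒯.H_pos j)) (𝒯.part j w (𝒯.pos j t))
      (x.1, Function.update x.2 j
        (𝒯.pos j t, (𝒯.cp j (𝒯.pos j t) (𝒯.part j w (𝒯.pos j t))).symm ⟨w, rfl⟩))
    rw [← splice_succ] at h1 h2
    constructor
    · rw [ph_succ, h1, hd, 𝒯.pos_val ht, mul_comm]
      exact Nat.mod_add_div t (𝒯.H j)
    · rw [wd_succ, hd, h2]
      simp

theorem splice_self (j : ℕ) (x : 𝒯.X) : splice j (ph j x) (wd j x) x = x := by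
  induction j generalizing x with
  | zero => rfl
  | succ j ih =>
    have h4 : (x.1, Function.update x.2 j (𝒯.pos j (ph (j + 1) x),
        (𝒯.cp j (𝒯.pos j (ph (j + 1) x)) (𝒯.part j (wd (j + 1) x)
          (𝒯.pos j (ph (j + 1) x)))).symm ⟨wd (j + 1) x, rfl⟩)) = x := by
      refine Prod.ext rfl ?_
      rw [Function.update_eq_self_iff]
      refine Prod.ext (pos_ph_succ j x) ?_
      show (𝒯.cp j _ _).symm _ = (x.2 j).2
      rw [Equiv.symm_apply_eq]
      apply Subtype.ext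
      show wd (j + 1) x = _
      rw [pos_ph_succ, part_wd_succ]
      exact wd_succ j x
    rw [splice_succ, h4, ph_succ_mod, ← wd_eq_part]
    exact ih x

theorem splice_congr {j : ℕ} {x y : 𝒯.X} (h : ∀ i, j ≤ i → x.2 i = y.2 i) (t : ℕ) (w : 𝒯.W j) :
    splice j t w x = splice j t w y := by
  induction j generalizing t x y with
  | zero => exact Prod.ext rfl (funext fun i => h i (Nat.zero_le _))
  | succ j ih =>
    rw [splice_succ, splice_succ]
    apply ih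
    intro i hi
    show Function.update x.2 j _ i = Function.update y.2 j _ i
    rcases eq_or_lt_of_le hi with rfl | hi
    · rw [Function.update_self, Function.update_self]
    · rw [Function.update_of_ne (by omega), Function.update_of_ne (by omega), h i hi]

/-- A point is determined by phase and word of level `j` and the digits from `j` on. -/
theorem ext_level {j : ℕ} {x y : 𝒯.X} (h1 : ph j x = ph j y) (h2 : wd j x = wd j y)
    (h : ∀ i, j ≤ i → x.2 i = y.2 i) : x = y := by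
  rw [← splice_self j x, ← splice_self j y, h1, h2]
  exact splice_congr h _ _

/-- Phase and word of level `j` depend on the first digits only. -/
theorem ph_wd_congr {j : ℕ} {x y : 𝒯.X} (h0 : x.1 = y.1) (h : ∀ i, i < j → x.2 i = y.2 i) :
    ph j x = ph j y ∧ wd j x = wd j y := by
  induction j with
  | zero => exact ⟨rfl, h0⟩
  | succ j ih =>
    obtain ⟨h1, h2⟩ := ih (fun i hi => h i (by omega))
    have h3 := h j (Nat.lt_succ_self j)
    rw [ph_succ, ph_succ, wd_succ, wd_succ, h1, h2, h3]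
    exact ⟨rfl, rfl⟩

/-- The first digits of a splice do not depend on the point. -/
theorem splice_low (j t : ℕ) (w : 𝒯.W j) (x y : 𝒯.X) :
    (splice j t w x).1 = (splice j t w y).1 ∧
      ∀ i, i < j → (splice j t w x).2 i = (splice j t w y).2 i := by
  induction j generalizing t x y with
  | zero => exact ⟨rfl, fun i hi => absurd hi (Nat.not_lt_zero i)⟩
  | succ j ih =>
    rw [splice_succ, splice_succ]
    refine ⟨(ih _ _ _ _).1, fun i hi => ?_⟩
    rcases Nat.lt_succ_iff_lt_or_eq.1 hi with hi | rfl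
    · exact (ih _ _ _ _).2 i hi
    · rw [splice_digit le_rfl, splice_digit le_rfl]
      show Function.update x.2 i _ i = Function.update y.2 i _ i
      rw [Function.update_self, Function.update_self]

theorem ph_wd_succ_congr {j : ℕ} {x y : 𝒯.X} {t : ℕ} (h1 : ph j y = ph j x + t)
    (h2 : wd j y = wd j x) (h3 : y.2 j = x.2 j) :
    ph (j + 1) y = ph (j + 1) x + t ∧ wd (j + 1) y = wd (j + 1) x := by
  rw [ph_succ, ph_succ, wd_succ, wd_succ, h1, h2, h3]
  exact ⟨by ring, rfl⟩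

/-- advance the phase at level `j` -/
noncomputable def adv (j : ℕ) (x : 𝒯.X) : 𝒯.X := splice j (ph j x + 1) (wd j x) x

/-- move the phase at level `j` back -/
noncomputable def ret (j : ℕ) (x : 𝒯.X) : 𝒯.X := splice j (ph j x - 1) (wd j x) x

theorem adv_succ {j : ℕ} {x : 𝒯.X} (h : ph j x + 1 < 𝒯.H j) :
    ph (j + 1) x + 1 < 𝒯.H (j + 1) ∧ adv (j + 1) x = adv j x := by
  obtain ⟨h1, h2⟩ := ph_wd_splice h (wd j x) x
  obtain ⟨h3, h4⟩ := ph_wd_succ_congr (x := x) (y := adv j x) h1 h2 (splice_digit le_rfl _ _ _)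
  have h5 : ph (j + 1) x + 1 < 𝒯.H (j + 1) := by rw [← h3]; exact ph_lt _ _
  refine ⟨h5, ext_level (j := j + 1) ?_ ?_ ?_⟩
  · rw [h3]; exact (ph_wd_splice h5 _ _).1
  · rw [h4]; exact (ph_wd_splice h5 _ _).2
  · intro i hi
    rw [adv, adv, splice_digit hi, splice_digit (by omega)]

theorem ret_succ {j : ℕ} {x : 𝒯.X} (h : 0 < ph j x) :
    0 < ph (j + 1) x ∧ ret (j + 1) x = ret j x := by
  have h0 : ph j x - 1 < 𝒯.H j := lt_of_le_of_lt (Nat.sub_le _ _) (ph_lt j x)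
  obtain ⟨h1, h2⟩ := ph_wd_splice h0 (wd j x) x
  obtain ⟨h3, h4⟩ := ph_wd_succ_congr (x := ret j x) (y := x) (t := 1)
    (by rw [ret, h1]; omega) h2.symm (splice_digit le_rfl _ _ _).symm
  have h5 : 0 < ph (j + 1) x := by omega
  have h6 : ph (j + 1) x - 1 < 𝒯.H (j + 1) := lt_of_le_of_lt (Nat.sub_le _ _) (ph_lt _ x)
  refine ⟨h5, ext_level (j := j + 1) ?_ ?_ ?_⟩
  · rw [ret, (ph_wd_splice h6 _ _).1]; omega
  · rw [← h4]; exact (ph_wd_splice h6 _ _).2
  · intro i hi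
    rw [ret, ret, splice_digit hi, splice_digit (by omega)]

theorem adv_mono {j k : ℕ} (hjk : j ≤ k) {x : 𝒯.X} (h : ph j x + 1 < 𝒯.H j) :
    ph k x + 1 < 𝒯.H k ∧ adv k x = adv j x := by
  induction k, hjk using Nat.le_induction with
  | base => exact ⟨h, rfl⟩
  | succ k _ ih =>
    obtain ⟨h1, h2⟩ := adv_succ ih.1
    exact ⟨h1, h2.trans ih.2⟩

theorem ret_mono {j k : ℕ} (hjk : j ≤ k) {x : 𝒯.X} (h : 0 < ph j x) :
    0 < ph k x ∧ ret k x = ret j x := by
  induction k, hjk using Nat.le_induction with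
  | base => exact ⟨h, rfl⟩
  | succ k _ ih =>
    obtain ⟨h1, h2⟩ := ret_succ ih.1
    exact ⟨h1, h2.trans ih.2⟩

open Classical in
/-- the transformation -/
noncomputable def T (x : 𝒯.X) : 𝒯.X :=
  if h : ∃ j, ph j x + 1 < 𝒯.H j then adv (Nat.find h) x
  else (x.1, fun j => (⟨0, 𝒯.m_pos j⟩, (x.2 j).2))

open Classical in
/-- its inverse -/
noncomputable def Tinv (x : 𝒯.X) : 𝒯.X :=
  if h : ∃ j, 0 < ph j x then ret (Nat.find h) x
  else (x.1, fun j => (⟨𝒯.m j - 1, Nat.sub_lt (𝒯.m_pos j) Nat.one_pos⟩, (x.2 j).2))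

theorem T_eq_adv {j : ℕ} {x : 𝒯.X} (h : ph j x + 1 < 𝒯.H j) : T x = adv j x := by
  classical
  have hex : ∃ j, ph j x + 1 < 𝒯.H j := ⟨j, h⟩
  rw [T, dif_pos hex]
  exact (adv_mono (Nat.find_min' hex h) (Nat.find_spec hex)).2.symm

theorem Tinv_eq_ret {j : ℕ} {x : 𝒯.X} (h : 0 < ph j x) : Tinv x = ret j x := by
  classical
  have hex : ∃ j, 0 < ph j x := ⟨j, h⟩
  rw [Tinv, dif_pos hex]
  exact (ret_mono (Nat.find_min' hex h) (Nat.find_spec hex)).2.symm

theorem ph_wd_T {j : ℕ} {x : 𝒯.X} (h : ph j x + 1 < 𝒯.H j) :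
    ph j (T x) = ph j x + 1 ∧ wd j (T x) = wd j x := by
  rw [T_eq_adv h]
  exact ph_wd_splice h _ _

theorem digit_last_of_not {x : 𝒯.X} (h : ¬ ∃ j, ph j x + 1 < 𝒯.H j) (j : ℕ) :
    ((x.2 j).1 : ℕ) + 1 = 𝒯.m j := by
  by_contra hb
  have h1 : ((x.2 j).1 : ℕ) + 1 < 𝒯.m j := lt_of_le_of_ne (x.2 j).1.2 hb
  apply h
  refine ⟨j + 1, ?_⟩
  rw [ph_succ, H_succ]
  have h2 := ph_lt j x
  calc ph j x + (x.2 j).1 * 𝒯.H j + 1 ≤ 𝒯.H j + (x.2 j).1 * 𝒯.H j := by omega
    _ = ((x.2 j).1 + 1) * 𝒯.H j := by ring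
    _ < 𝒯.m j * 𝒯.H j := Nat.mul_lt_mul_of_pos_right h1 (𝒯.H_pos j)

theorem digit_zero_of_not {x : 𝒯.X} (h : ¬ ∃ j, 0 < ph j x) (j : ℕ) : ((x.2 j).1 : ℕ) = 0 := by
  by_contra hb
  apply h
  refine ⟨j + 1, ?_⟩
  rw [ph_succ]
  exact Nat.add_pos_right _ (Nat.mul_pos (Nat.pos_of_ne_zero hb) (𝒯.H_pos j))

theorem ph_of_zero {x : 𝒯.X} (h : ∀ j, ((x.2 j).1 : ℕ) = 0) (j : ℕ) : ph j x = 0 := by
  induction j with
  | zero => rfl
  | succ j ih => rw [ph_succ, h j, ih]; simp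

theorem ph_of_last {x : 𝒯.X} (h : ∀ j, ((x.2 j).1 : ℕ) + 1 = 𝒯.m j) (j : ℕ) :
    ph j x + 1 = 𝒯.H j := by
  induction j with
  | zero => rfl
  | succ j ih =>
    rw [ph_succ, H_succ]
    have h1 := congrArg (· * 𝒯.H j) (h j)
    simp only [add_mul, one_mul] at h1
    omega

theorem Tinv_T (x : 𝒯.X) : Tinv (T x) = x := by
  by_cases h : ∃ j, ph j x + 1 < 𝒯.H j
  · obtain ⟨j, h⟩ := h
    obtain ⟨h1, h2⟩ := ph_wd_T h
    rw [Tinv_eq_ret (j := j) (by rw [h1]; omega), ret, h1, h2, Nat.add_sub_cancel, T_eq_adv h, adv]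
    rw [splice_congr (x := splice j (ph j x + 1) (wd j x) x) (y := x)
      (fun i hi => splice_digit hi _ _ _)]
    exact splice_self j x
  · have hb := digit_last_of_not h
    have h1 : T x = (x.1, fun j => (⟨0, 𝒯.m_pos j⟩, (x.2 j).2)) := by rw [T, dif_neg h]
    have h2 : ¬ ∃ j, 0 < ph j (T x) := by
      rintro ⟨j, hj⟩
      rw [ph_of_zero (x := T x) (by rw [h1]; exact fun _ => rfl)] at hj
      exact lt_irrefl _ hj
    rw [Tinv, dif_neg h2, h1]
    refine Prod.ext rfl (funext fun j => ?_)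
    refine Prod.ext (Fin.ext ?_) rfl
    have := hb j
    show 𝒯.m j - 1 = ((x.2 j).1 : ℕ)
    omega

theorem T_Tinv (x : 𝒯.X) : T (Tinv x) = x := by
  by_cases h : ∃ j, 0 < ph j x
  · obtain ⟨j, h⟩ := h
    have h0 : ph j x - 1 < 𝒯.H j := lt_of_le_of_lt (Nat.sub_le _ _) (ph_lt j x)
    obtain ⟨h1, h2⟩ := ph_wd_splice h0 (wd j x) x
    have h3 : Tinv x = splice j (ph j x - 1) (wd j x) x := by rw [Tinv_eq_ret h, ret]
    have h4 := ph_lt j x
    have h5 : ph j (Tinv x) + 1 < 𝒯.H j := by rw [h3, h1]; omega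
    rw [T_eq_adv h5, adv, h3, h1, h2, Nat.sub_add_cancel h]
    rw [splice_congr (x := splice j (ph j x - 1) (wd j x) x) (y := x)
      (fun i hi => splice_digit hi _ _ _)]
    exact splice_self j x
  · have hb := digit_zero_of_not h
    have h1 : Tinv x = (x.1, fun j => (⟨𝒯.m j - 1, Nat.sub_lt (𝒯.m_pos j) Nat.one_pos⟩,
        (x.2 j).2)) := by rw [Tinv, dif_neg h]
    have h2 : ¬ ∃ j, ph j (Tinv x) + 1 < 𝒯.H j := by
      rintro ⟨j, hj⟩
      rw [ph_of_last (x := Tinv x) (by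
        rw [h1]; intro j; show 𝒯.m j - 1 + 1 = 𝒯.m j; have := 𝒯.m_pos j; omega)] at hj
      exact lt_irrefl _ hj
    rw [T, dif_neg h2, h1]
    refine Prod.ext rfl (funext fun j => ?_)
    exact Prod.ext (Fin.ext (hb j).symm) rfl

/-- the letters along the orbit -/
theorem wd_zero_eq_letter (j : ℕ) (x : 𝒯.X) : wd 0 x = 𝒯.letter j (ph j x) (wd j x) := by
  induction j with
  | zero => rfl
  | succ j ih => rw [letter, ph_succ_mod, ← wd_eq_part]; exact ih

end GTower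

end Vale.Agent.P109
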