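import Vale.Agent.P109.H787.GTower
import Vale.Agent.P109.H787.Tower
import Mathlib.Dynamics.Ergodic.Ergodic
import Mathlib.MeasureTheory.Constructions.Polish.Basic

/-!
Measure preserving systems over a tower of word spaces: the abstract structure `Sys`, and its
elementary consequences.
-/

open MeasureTheory Set
open scoped ENNReal

namespace Vale.Agent.P109

namespace GTower

/-- An invertible measure preserving system over the tower `𝒯`: `ph j x` (`< H j`) is the position
of `x` in its block of level `j`, `wd j x` is the word of level `j` written in this block. -/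
structure Sys (𝒯 : GTower) where
  /-- the space -/
  X : Type
  [ms : MeasurableSpace X]
  [sb : StandardBorelSpace X]
  /-- the measure -/
  μ : Measure X
  [prob : IsProbabilityMeasure μ]
  /-- the transformation -/
  T : X ≃ᵐ X
  mp : MeasurePreserving T μ μ
  /-- position in the block of level `j` -/
  ph : ℕ → X → ℕ
  /-- word written in the block of level `j` -/
  wd : ∀ j, X → 𝒯.W j
  meas_ph : ∀ j, Measurable (ph j)
  meas_wd : ∀ j v, MeasurableSet {x | wd j x = v}
  ph_lt : ∀ j x, ph j x < 𝒯.H j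
  ph_T : ∀ j x, ph j x + 1 < 𝒯.H j → ph j (T x) = ph j x + 1
  wd_T : ∀ j x, ph j x + 1 < 𝒯.H j → wd j (T x) = wd j x
  ph_T_last : ∀ j x, ph j x + 1 = 𝒯.H j → ph j (T x) = 0
  ph_mod : ∀ j x, ph (j + 1) x % 𝒯.H j = ph j x
  wd_part : ∀ j x, wd j x = 𝒯.part j (wd (j + 1) x) (𝒯.pos j (ph (j + 1) x))
  law : ∀ j t v, t < 𝒯.H j →
    μ {x | ph j x = t ∧ wd j x = v} = ((𝒯.H j * Fintype.card (𝒯.W j) : ℕ) : ℝ≥0∞)⁻¹
  gen : ms = MeasurableSpace.generateFrom
    {A | ∃ (j t : ℕ) (v : 𝒯.W j), A = {x | ph j x = t ∧ wd j x = v}}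

attribute [instance] Sys.ms Sys.sb Sys.prob

end GTower

end Vale.Agent.P109
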