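import Vale.Agent.P109.H787.GAdic
import Vale.Agent.P109.H787.Sys
import Mathlib.Probability.ProductMeasure

/-!
The adic transformation over a tower of word spaces as a measure preserving system.
-/

open MeasureTheory Set
open scoped ENNReal

namespace Vale.Agent.P109

/-- uniform distribution on a finite set -/
noncomputable def unif (α : Type) [MeasurableSpace α] [Fintype α] : Measure α :=
  ((Fintype.card α : ℕ) : ℝ≥0∞)⁻¹ • Measure.count

theorem unif_singleton (α : Type) [MeasurableSpace α] [MeasurableSingletonClass α] [Fintype α]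
    (a : α) : unif α {a} = ((Fintype.card α : ℕ) : ℝ≥0∞)⁻¹ := by
  simp [unif]

instance (α : Type) [MeasurableSpace α] [Fintype α] [Nonempty α] [MeasurableSingletonClass α] :
    IsProbabilityMeasure (unif α) := by
  constructor
  simp only [unif, Measure.smul_apply, Measure.count_univ, smul_eq_mul, ENat.card_eq_coe_fintype_card]
  rw [show ((((Fintype.card α : ℕ) : ℕ∞) : ℝ≥0∞)) = ((Fintype.card α : ℕ) : ℝ≥0∞) from rfl]
  exact ENNReal.inv_mul_cancel (by simp) (by simp)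

namespace GTower

variable {𝒯 : GTower}

local instance msW : MeasurableSpace (𝒯.W 0) := ⊤
local instance dmsW : DiscreteMeasurableSpace (𝒯.W 0) := ⟨fun _ => trivial⟩

instance neZero_m (j : ℕ) : Nonempty (Fin (𝒯.m j)) := ⟨⟨0, 𝒯.m_pos j⟩⟩
instance neZero_p (j : ℕ) : Nonempty (Fin (𝒯.p j)) := ⟨⟨0, 𝒯.p_pos j⟩⟩

/-- the points at position `t` in a block of level `j` in which the word `v` is written -/
def cell (j t : ℕ) (v : 𝒯.W j) : Set 𝒯.X := {x | ph j x = t ∧ wd j x = v}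

/-- a point of `X` -/
noncomputable def pt (𝒯 : GTower) : 𝒯.X :=
  (Classical.arbitrary _, fun j => (⟨0, 𝒯.m_pos j⟩, ⟨0, 𝒯.p_pos j⟩))

theorem cell_eq {j t : ℕ} (ht : t < 𝒯.H j) (v : 𝒯.W j) :
    cell j t v = ({(splice j t v (pt 𝒯)).1} : Set (𝒯.W 0)) ×ˢ
      (Set.pi (Finset.range j) (fun i => {(splice j t v (pt 𝒯)).2 i})) := by
  ext x
  simp only [cell, mem_ofPred_eq, mem_prod, mem_singleton_iff, Set.mem_pi, Finset.coe_range,
    mem_Iio]
  constructor
  · rintro ⟨rfl, rfl⟩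
    obtain ⟨h1, h2⟩ := splice_low j (ph j x) (wd j x) x (pt 𝒯)
    rw [splice_self] at h1 h2
    exact ⟨h1, h2⟩
  · rintro ⟨h1, h2⟩
    obtain ⟨h3, h4⟩ := ph_wd_congr h1 h2
    obtain ⟨h5, h6⟩ := ph_wd_splice ht v (pt 𝒯)
    exact ⟨h3.trans h5, h4.trans h6⟩

theorem cell_empty {j t : ℕ} (ht : ¬ t < 𝒯.H j) (v : 𝒯.W j) : cell j t v = ∅ := by
  ext x
  simp only [cell, mem_ofPred_eq, mem_empty_iff_false, iff_false]
  rintro ⟨rfl, -⟩
  exact ht (ph_lt j x)

theorem measurableSet_cell (j t : ℕ) (v : 𝒯.W j) : MeasurableSet (cell j t v) := by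
  by_cases ht : t < 𝒯.H j
  · rw [cell_eq ht]
    refine (measurableSet_singleton _).prod ?_
    exact MeasurableSet.pi (Finset.range j).countable_toSet fun i _ => measurableSet_singleton _
  · rw [cell_empty ht]; exact MeasurableSet.empty

/-- the measure -/
noncomputable def meas (𝒯 : GTower) : Measure 𝒯.X :=
  (unif (𝒯.W 0)).prod (Measure.infinitePi fun j => unif (Fin (𝒯.m j) × Fin (𝒯.p j)))

instance : IsProbabilityMeasure (meas 𝒯) := by
  unfold meas; infer_instance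

theorem H_mul_card (j : ℕ) : ((𝒯.H j * Fintype.card (𝒯.W j) : ℕ) : ℝ≥0∞)⁻¹ =
    ((Fintype.card (𝒯.W 0) : ℕ) : ℝ≥0∞)⁻¹ *
      ∏ i ∈ Finset.range j, ((Fintype.card (Fin (𝒯.m i) × Fin (𝒯.p i)) : ℕ) : ℝ≥0∞)⁻¹ := by
  induction j with
  | zero => simp [H_zero]
  | succ j ih =>
    rw [Finset.prod_range_succ, ← mul_assoc, ← ih, H_succ, card_succ]
    rw [← ENNReal.mul_inv (Or.inr (ENNReal.natCast_ne_top _)) (Or.inl (ENNReal.natCast_ne_top _)),
      ← Nat.cast_mul, Fintype.card_prod,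
      Fintype.card_fin, Fintype.card_fin]
    congr 2
    ring

theorem meas_cell {j t : ℕ} (ht : t < 𝒯.H j) (v : 𝒯.W j) :
    meas 𝒯 (cell j t v) = ((𝒯.H j * Fintype.card (𝒯.W j) : ℕ) : ℝ≥0∞)⁻¹ := by
  rw [cell_eq ht, meas, Measure.prod_prod, Measure.infinitePi_pi
    (μ := fun j => unif (Fin (𝒯.m j) × Fin (𝒯.p j))) (s := Finset.range j)
    (fun i _ => measurableSet_singleton _), unif_singleton, H_mul_card]
  congr 1
  exact Finset.prod_congr rfl fun i _ => unif_singleton _ _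

theorem measurable_ph (j : ℕ) : Measurable (ph (𝒯 := 𝒯) j) := by
  refine measurable_to_countable' fun t => ?_
  have : ph (𝒯 := 𝒯) j ⁻¹' {t} = ⋃ v : 𝒯.W j, cell j t v := by
    ext x; simp [cell]
  rw [this]
  exact MeasurableSet.iUnion fun v => measurableSet_cell j t v

theorem measurableSet_wd (j : ℕ) (v : 𝒯.W j) : MeasurableSet {x : 𝒯.X | wd j x = v} := by
  have : {x : 𝒯.X | wd j x = v} = ⋃ t : ℕ, cell j t v := by
    ext x; simp [cell]
  rw [this]
  exact MeasurableSet.iUnion fun t => measurableSet_cell j t v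

theorem measurable_splice (j t : ℕ) (w : 𝒯.W j) : Measurable (splice (𝒯 := 𝒯) j t w) := by
  induction j generalizing t with
  | zero =>
    show Measurable fun x : 𝒯.X => ((w, x.2) : 𝒯.X)
    exact measurable_const.prodMk measurable_snd
  | succ j ih =>
    have : splice (𝒯 := 𝒯) (j + 1) t w =
        fun x => splice j (t % 𝒯.H j) (𝒯.part j w (𝒯.pos j t)) (x.1, Function.update x.2 j
          (𝒯.pos j t, (𝒯.cp j (𝒯.pos j t) (𝒯.part j w (𝒯.pos j t))).symm ⟨w, rfl⟩)) :=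
      funext fun x => splice_succ j t w x
    rw [this]
    exact (ih _ _).comp (measurable_fst.prodMk (measurable_update_left.comp measurable_snd))

theorem measurable_splice_comp (j : ℕ) (g : ℕ → ℕ) :
    Measurable (fun x : 𝒯.X => splice j (g (ph j x)) (wd j x) x) := by
  intro A hA
  have : (fun x : 𝒯.X => splice j (g (ph j x)) (wd j x) x) ⁻¹' A =
      ⋃ t : ℕ, ⋃ v : 𝒯.W j, cell j t v ∩ (splice j (g t) v) ⁻¹' A := by
    ext x
    simp only [mem_preimage, mem_iUnion, mem_inter_iff, cell, mem_ofPred_eq]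
    constructor
    · intro h; exact ⟨_, _, ⟨rfl, rfl⟩, h⟩
    · rintro ⟨_, _, ⟨rfl, rfl⟩, h⟩; exact h
  rw [this]
  exact MeasurableSet.iUnion fun t => MeasurableSet.iUnion fun v =>
    (measurableSet_cell j t v).inter (measurable_splice j _ v hA)

theorem measurable_T : Measurable (T (𝒯 := 𝒯)) := by
  intro A hA
  have h0 : Measurable (fun x : 𝒯.X => ((x.1, fun j => (⟨0, 𝒯.m_pos j⟩, (x.2 j).2)) : 𝒯.X)) := by
    refine measurable_fst.prodMk (measurable_pi_lambda _ fun j => ?_)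
    exact measurable_const.prodMk (measurable_snd.comp ((measurable_pi_apply j).comp measurable_snd))
  have hJ : ∀ j, MeasurableSet {x : 𝒯.X | ph j x + 1 < 𝒯.H j} := fun j =>
    measurable_ph j (MeasurableSet.of_discrete (s := {t : ℕ | t + 1 < 𝒯.H j}))
  have : T (𝒯 := 𝒯) ⁻¹' A = (⋃ j : ℕ, {x | ph j x + 1 < 𝒯.H j} ∩ adv j ⁻¹' A) ∪
      ((⋃ j : ℕ, {x | ph j x + 1 < 𝒯.H j})ᶜ ∩
        (fun x : 𝒯.X => ((x.1, fun j => (⟨0, 𝒯.m_pos j⟩, (x.2 j).2)) : 𝒯.X)) ⁻¹' A) := by
    ext x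
    simp only [mem_preimage, mem_union, mem_iUnion, mem_inter_iff, mem_ofPred_eq, mem_compl_iff]
    by_cases h : ∃ j, ph j x + 1 < 𝒯.H j
    · obtain ⟨j, hj⟩ := h
      rw [T_eq_adv hj]
      constructor
      · intro h; exact Or.inl ⟨j, hj, h⟩
      · rintro (⟨k, hk, h⟩ | ⟨h, -⟩)
        · rwa [← T_eq_adv hj, T_eq_adv hk]
        · exact absurd ⟨j, hj⟩ h
    · have hT : T x = (x.1, fun j => (⟨0, 𝒯.m_pos j⟩, (x.2 j).2)) := by
        classical
        rw [T, dif_neg h]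
      rw [hT]
      constructor
      · intro h'; exact Or.inr ⟨h, h'⟩
      · rintro (⟨k, hk, -⟩ | ⟨-, h'⟩)
        · exact absurd ⟨k, hk⟩ h
        · exact h'
  rw [this]
  exact (MeasurableSet.iUnion fun j => (hJ j).inter (measurable_splice_comp j (· + 1) hA)).union
    ((MeasurableSet.iUnion hJ).compl.inter (h0 hA))

theorem ph_mod_of_le {j k : ℕ} (hjk : j ≤ k) (x : 𝒯.X) : ph k x % 𝒯.H j = ph j x := by
  induction k, hjk using Nat.le_induction with
  | base => exact Nat.mod_eq_of_lt (ph_lt j x)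
  | succ k hjk ih =>
    have hd : 𝒯.H j ∣ 𝒯.H k := by
      clear ih
      induction k, hjk using Nat.le_induction with
      | base => exact dvd_refl _
      | succ k _ ih => rw [H_succ]; exact ih.mul_left _
    rw [ph_succ, Nat.add_mod, Nat.mod_eq_zero_of_dvd (hd.mul_left _), add_zero, Nat.mod_mod, ih]

theorem ph_T_last {j : ℕ} {x : 𝒯.X} (h : ph j x + 1 = 𝒯.H j) : ph j (T x) = 0 := by
  by_cases h' : ∃ k, ph k x + 1 < 𝒯.H k
  · obtain ⟨k, hk⟩ := h'
    have hm : ph (max j k) x + 1 < 𝒯.H (max j k) := (adv_mono (le_max_right j k) hk).1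
    rw [← ph_mod_of_le (le_max_left j k), (ph_wd_T hm).1, ← Nat.mod_add_mod,
      ph_mod_of_le (le_max_left j k), h, Nat.mod_self]
  · have hT : T x = (x.1, fun j => (⟨0, 𝒯.m_pos j⟩, (x.2 j).2)) := by
      classical
      rw [T, dif_neg h']
    exact ph_of_zero (x := T x) (by rw [hT]; exact fun _ => rfl) j

end GTower

end Vale.Agent.P109
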