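import Vale.Agent.P109.H787.GMeas

/-!
Invariance of the measure; the system `GTower.sys`.
-/

open MeasureTheory Set
open scoped ENNReal

namespace Vale.Agent.P109

namespace GTower

variable {𝒯 : GTower}

attribute [local instance] msW dmsW

/-- The events depending on phase and word of level `j`. -/
def lev (j : ℕ) (B : Set (ℕ × 𝒯.W j)) : Set 𝒯.X := {x | (ph j x, wd j x) ∈ B}

theorem lev_eq_iUnion (j : ℕ) (B : Set (ℕ × 𝒯.W j)) :
    lev j B = ⋃ q : B, cell j q.1.1 q.1.2 := by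
  ext x
  simp only [lev, mem_ofPred_eq, mem_iUnion, cell]
  constructor
  · intro h; exact ⟨⟨_, h⟩, rfl, rfl⟩
  · rintro ⟨⟨⟨t, v⟩, h⟩, rfl, rfl⟩; exact h

theorem measurableSet_lev (j : ℕ) (B : Set (ℕ × 𝒯.W j)) : MeasurableSet (lev j B) := by
  rw [lev_eq_iUnion]
  exact MeasurableSet.iUnion fun q => measurableSet_cell j _ _

/-- An event of level `j` is an event of level `j + 1`. -/
theorem lev_succ (j : ℕ) (B : Set (ℕ × 𝒯.W j)) :
    lev j B = lev (j + 1) {q | (q.1 % 𝒯.H j, 𝒯.part j q.2 (𝒯.pos j q.1)) ∈ B} := by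
  ext x
  simp only [lev, mem_ofPred_eq]
  rw [ph_succ_mod, ← wd_eq_part]

theorem lev_le {j k : ℕ} (hjk : j ≤ k) (B : Set (ℕ × 𝒯.W j)) :
    ∃ B' : Set (ℕ × 𝒯.W k), lev j B = lev k B' := by
  induction k, hjk using Nat.le_induction with
  | base => exact ⟨B, rfl⟩
  | succ k _ ih =>
    obtain ⟨B', h⟩ := ih
    exact ⟨_, h.trans (lev_succ k B')⟩

theorem lev_compl (j : ℕ) (B : Set (ℕ × 𝒯.W j)) : (lev j B)ᶜ = lev j Bᶜ := rfl

theorem lev_inter (j : ℕ) (B B' : Set (ℕ × 𝒯.W j)) : lev j B ∩ lev j B' = lev j (B ∩ B') := rfl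

/-- Two measures agreeing on the cells with positive phase agree on events of level `j` with
positive phase. -/
theorem lev_congr {μ ν : Measure 𝒯.X} {j : ℕ}
    (h : ∀ t v, 0 < t → t < 𝒯.H j → μ (cell j t v) = ν (cell j t v)) (B : Set (ℕ × 𝒯.W j)) :
    μ (lev j B ∩ {x | 0 < ph j x}) = ν (lev j B ∩ {x | 0 < ph j x}) := by
  have h1 : lev j B ∩ {x : 𝒯.X | 0 < ph j x} = lev j (B ∩ {q | 0 < q.1}) := rfl
  rw [h1, lev_eq_iUnion]
  have hd : Pairwise (Function.onFun Disjoint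
      fun q : (B ∩ {q : ℕ × 𝒯.W j | 0 < q.1} : Set (ℕ × 𝒯.W j)) => cell (𝒯 := 𝒯) j q.1.1 q.1.2) := by
    intro q q' hq
    rw [Function.onFun, Set.disjoint_left]
    rintro x ⟨h1, h2⟩ ⟨h3, h4⟩
    exact hq (Subtype.ext (Prod.ext (h1.symm.trans h3) (h2.symm.trans h4)))
  rw [measure_iUnion hd (fun q => measurableSet_cell j _ _),
    measure_iUnion hd (fun q => measurableSet_cell j _ _)]
  refine tsum_congr fun q => ?_
  by_cases hq : q.1.1 < 𝒯.H j
  · exact h _ _ q.2.2 hq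
  · rw [cell_empty hq]; simp

theorem meas_ph (j : ℕ) : meas 𝒯 {x | ph j x = 0} = ((𝒯.H j : ℕ) : ℝ≥0∞)⁻¹ := by
  have h1 : {x : 𝒯.X | ph j x = 0} = ⋃ v : 𝒯.W j, cell j 0 v := by
    ext x; simp [cell]
  have hd : Pairwise (Function.onFun Disjoint fun v : 𝒯.W j => cell (𝒯 := 𝒯) j 0 v) := by
    intro v v' hv
    rw [Function.onFun, Set.disjoint_left]
    rintro x ⟨h1, h2⟩ ⟨h3, h4⟩
    exact hv (h2.symm.trans h4)
  rw [h1, measure_iUnion hd (fun q => measurableSet_cell j _ _), tsum_fintype,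
    Finset.sum_congr rfl (fun v _ => meas_cell (𝒯.H_pos j) v)]
  simp only [Finset.sum_const, Finset.card_univ, nsmul_eq_mul, Nat.cast_mul]
  rw [ENNReal.mul_inv (Or.inr (ENNReal.natCast_ne_top _)) (Or.inl (ENNReal.natCast_ne_top _)),
    mul_comm, mul_assoc, ENNReal.inv_mul_cancel, mul_one]
  · exact Nat.cast_ne_zero.2 Fintype.card_ne_zero
  · exact ENNReal.natCast_ne_top _

theorem T_preimage_cell (j t : ℕ) (v : 𝒯.W j) (ht : t + 1 < 𝒯.H j) :
    T (𝒯 := 𝒯) ⁻¹' cell j (t + 1) v = cell j t v := by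
  ext x
  simp only [cell, mem_preimage, mem_ofPred_eq]
  constructor
  · rintro ⟨h1, h2⟩
    rcases Nat.lt_or_ge (ph j x + 1) (𝒯.H j) with h | h
    · rw [(ph_wd_T h).1] at h1
      rw [(ph_wd_T h).2] at h2
      exact ⟨by omega, h2⟩
    · have h3 := ph_lt j x
      rw [ph_T_last (by omega)] at h1
      omega
  · rintro ⟨h1, h2⟩
    have h : ph j x + 1 < 𝒯.H j := by omega
    rw [(ph_wd_T h).1, (ph_wd_T h).2]
    exact ⟨by omega, h2⟩

theorem tendsto_H : Filter.Tendsto (fun j => ((𝒯.H j : ℕ) : ℝ≥0∞)⁻¹) Filter.atTop (nhds 0) := by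
  refine ENNReal.tendsto_inv_nat_nhds_zero.comp ?_
  refine Filter.tendsto_atTop_mono (fun j => ?_) Filter.tendsto_id
  exact (Nat.lt_two_pow_self (n := j)).le.trans (𝒯.two_pow_le_H j)

theorem gen_cell : (inferInstance : MeasurableSpace 𝒯.X) = MeasurableSpace.generateFrom
    {A | ∃ (j t : ℕ) (v : 𝒯.W j), A = cell j t v} := by
  apply le_antisymm
  · set m : MeasurableSpace 𝒯.X := MeasurableSpace.generateFrom
      {A | ∃ (j t : ℕ) (v : 𝒯.W j), A = cell j t v} with hm
    have hc : ∀ (j t : ℕ) (v : 𝒯.W j), MeasurableSet[m] (cell j t v) := fun j t v =>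
      MeasurableSpace.measurableSet_generateFrom ⟨j, t, v, rfl⟩
    have h1 : Measurable[m] (Prod.fst : 𝒯.X → 𝒯.W 0) := by
      intro A _
      have : (Prod.fst : 𝒯.X → 𝒯.W 0) ⁻¹' A = ⋃ v : A, cell 0 0 v.1 := by
        ext x
        simp [cell, ph, wd]
      rw [this]
      exact MeasurableSet.iUnion fun v => hc 0 0 v.1
    have h2 : Measurable[m] (Prod.snd : 𝒯.X → ∀ j, Fin (𝒯.m j) × Fin (𝒯.p j)) := by
      refine @measurable_pi_lambda _ _ _ m _ _ fun i => ?_
      intro A _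
      have : (fun x : 𝒯.X => x.2 i) ⁻¹' A =
          ⋃ q : {q : ℕ × 𝒯.W (i + 1) // q.1 < 𝒯.H (i + 1) ∧
            (splice (i + 1) q.1 q.2 (pt 𝒯)).2 i ∈ A}, cell (i + 1) q.1.1 q.1.2 := by
        ext x
        simp only [mem_preimage, mem_iUnion]
        constructor
        · intro h
          refine ⟨⟨(ph (i + 1) x, wd (i + 1) x), ph_lt _ _, ?_⟩, rfl, rfl⟩
          rw [← (splice_low (i + 1) (ph (i + 1) x) (wd (i + 1) x) x (pt 𝒯)).2 i
            (Nat.lt_succ_self i), splice_self]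
          exact h
        · rintro ⟨⟨⟨t, v⟩, ht, h⟩, h3, h4⟩
          simp only at h3 h4 h
          rw [← h3, ← h4, ← (splice_low (i + 1) (ph (i + 1) x) (wd (i + 1) x) x (pt 𝒯)).2 i
            (Nat.lt_succ_self i), splice_self] at h
          exact h
      rw [this]
      exact MeasurableSet.iUnion fun q => hc _ _ _
    have h3 := h1.prodMk h2
    intro A hA
    exact h3 hA
  · apply MeasurableSpace.generateFrom_le
    rintro A ⟨j, t, v, rfl⟩
    exact measurableSet_cell j t v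

theorem map_T : (meas 𝒯).map T = meas 𝒯 := by
  have : IsProbabilityMeasure ((meas 𝒯).map T) := Measure.isProbabilityMeasure_map measurable_T.aemeasurable
  -- lower bound on events of the algebra
  have key : ∀ (j : ℕ) (B : Set (ℕ × 𝒯.W j)), meas 𝒯 (lev j B) ≤ (meas 𝒯).map T (lev j B) := by
    intro j B
    have hk : ∀ k, j ≤ k → meas 𝒯 (lev j B) ≤ (meas 𝒯).map T (lev j B) + ((𝒯.H k : ℕ) : ℝ≥0∞)⁻¹ := by
      intro k hjk
      obtain ⟨B', hB'⟩ := lev_le hjk B
      rw [hB']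
      calc meas 𝒯 (lev k B') ≤ meas 𝒯 ((lev k B' ∩ {x | 0 < ph k x}) ∪ {x | ph k x = 0}) := by
            apply measure_mono
            intro x hx
            rcases Nat.eq_zero_or_pos (ph k x) with h | h
            · exact Or.inr h
            · exact Or.inl ⟨hx, h⟩
        _ ≤ meas 𝒯 (lev k B' ∩ {x | 0 < ph k x}) + meas 𝒯 {x | ph k x = 0} := measure_union_le _ _
        _ = (meas 𝒯).map T (lev k B' ∩ {x | 0 < ph k x}) + ((𝒯.H k : ℕ) : ℝ≥0∞)⁻¹ := by
            rw [meas_ph]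
            congr 1
            apply lev_congr
            intro t v ht ht'
            rw [Measure.map_apply measurable_T (measurableSet_cell _ _ _)]
            obtain ⟨t, rfl⟩ : ∃ s, t = s + 1 := ⟨t - 1, by omega⟩
            rw [T_preimage_cell k t v ht', meas_cell ht', meas_cell (by omega)]
        _ ≤ _ := by gcongr; exact inter_subset_left
    have hlim : Filter.Tendsto
        (fun k => (meas 𝒯).map T (lev j B) + ((𝒯.H k : ℕ) : ℝ≥0∞)⁻¹) Filter.atTop
        (nhds ((meas 𝒯).map T (lev j B) + 0)) := tendsto_const_nhds.add tendsto_H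
    rw [add_zero] at hlim
    exact ge_of_tendsto hlim (Filter.eventually_atTop.2 ⟨j, hk⟩)
  have key2 : ∀ (j : ℕ) (B : Set (ℕ × 𝒯.W j)), (meas 𝒯).map T (lev j B) = meas 𝒯 (lev j B) := by
    intro j B
    apply le_antisymm _ (key j B)
    have h1 := key j Bᶜ
    rw [← lev_compl, prob_compl_eq_one_sub (measurableSet_lev j B),
      prob_compl_eq_one_sub (measurableSet_lev j B)] at h1
    exact (ENNReal.sub_le_sub_iff_left prob_le_one ENNReal.one_ne_top).1 h1
  have hpi : IsPiSystem {A : Set 𝒯.X | ∃ (j : ℕ) (B : Set (ℕ × 𝒯.W j)), A = lev j B} := by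
    rintro A ⟨j, B, rfl⟩ A' ⟨k, B', rfl⟩ -
    obtain ⟨C, hC⟩ := lev_le (le_max_left j k) B
    obtain ⟨C', hC'⟩ := lev_le (le_max_right j k) B'
    exact ⟨max j k, C ∩ C', by rw [hC, hC', lev_inter]⟩
  have hgen : (inferInstance : MeasurableSpace 𝒯.X) = MeasurableSpace.generateFrom
      {A : Set 𝒯.X | ∃ (j : ℕ) (B : Set (ℕ × 𝒯.W j)), A = lev j B} := by
    apply le_antisymm
    · rw [gen_cell]
      apply MeasurableSpace.generateFrom_mono
      rintro A ⟨j, t, v, rfl⟩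
      refine ⟨j, {(t, v)}, ?_⟩
      ext x
      simp [cell, lev]
    · apply MeasurableSpace.generateFrom_le
      rintro A ⟨j, B, rfl⟩
      exact measurableSet_lev j B
  refine ext_of_generate_finite _ hgen hpi ?_ ?_
  · rintro A ⟨j, B, rfl⟩
    exact key2 j B
  · simp

/-- the transformation as a measurable equivalence -/
noncomputable def TT (𝒯 : GTower) : 𝒯.X ≃ᵐ 𝒯.X where
  toFun := T
  invFun := Tinv
  left_inv := Tinv_T
  right_inv := T_Tinv
  measurable_toFun := measurable_T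
  measurable_invFun := by
    intro A hA
    have h : Tinv (𝒯 := 𝒯) ⁻¹' A = T '' A := by
      ext x
      constructor
      · intro hx; exact ⟨Tinv x, hx, T_Tinv x⟩
      · rintro ⟨y, hy, rfl⟩
        show Tinv (T y) ∈ A
        rwa [Tinv_T]
    show MeasurableSet (Tinv (𝒯 := 𝒯) ⁻¹' A)
    rw [h]
    exact (measurable_T.measurableEmbedding
      (Function.LeftInverse.injective Tinv_T)).measurableSet_image.2 hA

/-- The system over a tower of word spaces. -/
noncomputable def sys (𝒯 : GTower) : Sys 𝒯 where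
  X := 𝒯.X
  μ := meas 𝒯
  T := TT 𝒯
  mp := ⟨measurable_T, map_T⟩
  ph := ph
  wd := wd
  meas_ph := measurable_ph
  meas_wd := measurableSet_wd
  ph_lt := ph_lt
  ph_T _ _ h := (ph_wd_T h).1
  wd_T _ _ h := (ph_wd_T h).2
  ph_T_last _ _ h := ph_T_last h
  ph_mod := ph_succ_mod
  wd_part := wd_eq_part
  law _ _ v ht := meas_cell ht v
  gen := gen_cell

theorem exists_sys (𝒯 : GTower) : Nonempty (Sys 𝒯) := ⟨sys 𝒯⟩

end GTower

end Vale.Agent.P109
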