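import Mathlib.Data.Fintype.Card
import Mathlib.SetTheory.Cardinal.Finite
import Mathlib.Algebra.BigOperators.Fin
import Mathlib.Logic.Function.Basic
import Mathlib.Data.Nat.Find
import Mathlib.Tactic.Positivity
import Mathlib.Tactic.Ring

/-!
Towers of word spaces with `m j`-fold concatenation at level `j`, and the adic transformation over
such a tower, as a bijection of a product of finite sets.
-/

namespace Vale.Agent.P109

/-- A tower of word spaces. A word of level `j + 1` has `m j` parts, which are words of level `j`;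
for every position `c` and every word `w` of level `j` there are exactly `p j` words of level
`j + 1` with part `w` at position `c`. -/
structure GTower where
  /-- the words of level `j` -/
  W : ℕ → Type
  [fin : ∀ j, Fintype (W j)]
  [ne : ∀ j, Nonempty (W j)]
  /-- number of parts -/
  m : ℕ → ℕ
  two_le : ∀ j, 2 ≤ m j
  /-- the parts of a word -/
  part : ∀ j, W (j + 1) → Fin (m j) → W j
  /-- number of words with a given part -/
  p : ℕ → ℕ
  count : ∀ j c w, Nat.card {u : W (j + 1) // part j u c = w} = p j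

attribute [instance] GTower.fin GTower.ne

namespace GTower

variable (𝒯 : GTower)

theorem m_pos (j : ℕ) : 0 < 𝒯.m j := lt_of_lt_of_le Nat.zero_lt_two (𝒯.two_le j)

/-- length of the words of level `j` -/
def H : ℕ → ℕ
  | 0 => 1
  | j + 1 => 𝒯.m j * H j

theorem H_zero : 𝒯.H 0 = 1 := rfl

theorem H_succ (j : ℕ) : 𝒯.H (j + 1) = 𝒯.m j * 𝒯.H j := rfl

theorem H_pos (j : ℕ) : 0 < 𝒯.H j := by
  induction j with
  | zero => exact Nat.one_pos
  | succ j ih => exact Nat.mul_pos (𝒯.m_pos j) ih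

theorem two_pow_le_H (j : ℕ) : 2 ^ j ≤ 𝒯.H j := by
  induction j with
  | zero => exact le_refl _
  | succ j ih => rw [pow_succ, mul_comm]; exact Nat.mul_le_mul (𝒯.two_le j) ih

/-- position number `t / H j` (mod `m j`) -/
def pos (j t : ℕ) : Fin (𝒯.m j) := ⟨t / 𝒯.H j % 𝒯.m j, Nat.mod_lt _ (𝒯.m_pos j)⟩

theorem pos_val {j t : ℕ} (ht : t < 𝒯.H (j + 1)) : (𝒯.pos j t : ℕ) = t / 𝒯.H j := by
  show t / 𝒯.H j % 𝒯.m j = _
  apply Nat.mod_eq_of_lt
  rw [Nat.div_lt_iff_lt_mul (𝒯.H_pos j)]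
  exact ht

theorem pos_add (j t : ℕ) (c : Fin (𝒯.m j)) (ht : t < 𝒯.H j) : 𝒯.pos j (t + c * 𝒯.H j) = c := by
  apply Fin.ext
  show (t + c * 𝒯.H j) / 𝒯.H j % 𝒯.m j = c
  rw [Nat.add_mul_div_right _ _ (𝒯.H_pos j), Nat.div_eq_of_lt ht, zero_add,
    Nat.mod_eq_of_lt c.2]

/-- the `i`-th letter of a word of level `j` -/
def letter : (j : ℕ) → ℕ → 𝒯.W j → 𝒯.W 0
  | 0, _, w => w
  | j + 1, i, w => letter j (i % 𝒯.H j) (𝒯.part j w (𝒯.pos j i))

theorem p_pos (j : ℕ) : 0 < 𝒯.p j := by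
  obtain ⟨u⟩ := 𝒯.ne (j + 1)
  rw [← 𝒯.count j ⟨0, 𝒯.m_pos j⟩ (𝒯.part j u ⟨0, 𝒯.m_pos j⟩)]
  have : Nonempty {u' : 𝒯.W (j + 1) // 𝒯.part j u' ⟨0, 𝒯.m_pos j⟩ = 𝒯.part j u ⟨0, 𝒯.m_pos j⟩} :=
    ⟨⟨u, rfl⟩⟩
  exact Nat.card_pos

theorem card_succ (j : ℕ) : Fintype.card (𝒯.W (j + 1)) = Fintype.card (𝒯.W j) * 𝒯.p j := by
  classical
  have e1 : 𝒯.W (j + 1) ≃ Σ w : 𝒯.W j, {u : 𝒯.W (j + 1) // 𝒯.part j u ⟨0, 𝒯.m_pos j⟩ = w} :=
    (Equiv.sigmaFiberEquiv _).symm
  rw [← Nat.card_eq_fintype_card, Nat.card_congr e1, Nat.card_sigma,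
    Finset.sum_congr rfl (fun w _ => 𝒯.count j _ w)]
  simp

/-- Level `j` has many independent pairs of positions: for at least half of the pairs of positions
`(c, c')` the parts at `c` and `c'` of a random word of level `j + 1` are independent. -/
def Indep (j : ℕ) : Prop :=
  ∃ PP : Finset (Fin (𝒯.m j) × Fin (𝒯.m j)), 𝒯.m j ^ 2 ≤ 2 * PP.card ∧
    ∀ q ∈ PP, ∀ w w' : 𝒯.W j,
      Nat.card {u : 𝒯.W (j + 1) // 𝒯.part j u q.1 = w ∧ 𝒯.part j u q.2 = w'} *
        Fintype.card (𝒯.W j) ^ 2 = Fintype.card (𝒯.W (j + 1))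

end GTower

end Vale.Agent.P109
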