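import Vale.Agent.P109.H787.GSys
import Mathlib.MeasureTheory.Measure.SeparableMeasure

/-!
Events of level `j` of a system over a tower: their measure, their density, and the equality of the
slices of an event which is invariant inside the blocks of level `j`.
-/

open MeasureTheory Set
open scoped ENNReal symmDiff

namespace Vale.Agent.P109

namespace GTower

namespace Sys

variable {𝒯 : GTower} (S : Sys 𝒯)

/-- The events depending on phase and word of level `j`. -/
def lev (j : ℕ) (B : Set (ℕ × 𝒯.W j)) : Set S.X := {x | (S.ph j x, S.wd j x) ∈ B}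

theorem lev_eq_iUnion (j : ℕ) (B : Set (ℕ × 𝒯.W j)) :
    S.lev j B = ⋃ q : B, {x | S.ph j x = q.1.1 ∧ S.wd j x = q.1.2} := by
  ext x
  simp only [lev, mem_ofPred_eq, mem_iUnion]
  constructor
  · intro h; exact ⟨⟨_, h⟩, rfl, rfl⟩
  · rintro ⟨⟨⟨t, v⟩, h⟩, h1, h2⟩
    simp only at h1 h2
    rw [h1, h2]
    exact h

theorem measurableSet_cell (j t : ℕ) (v : 𝒯.W j) :
    MeasurableSet {x | S.ph j x = t ∧ S.wd j x = v} :=
  (S.meas_ph j (measurableSet_singleton t)).inter (S.meas_wd j v)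

theorem measurableSet_lev (j : ℕ) (B : Set (ℕ × 𝒯.W j)) : MeasurableSet (S.lev j B) := by
  rw [lev_eq_iUnion]
  exact MeasurableSet.iUnion fun q => S.measurableSet_cell j _ _

theorem lev_succ (j : ℕ) (B : Set (ℕ × 𝒯.W j)) :
    S.lev j B = S.lev (j + 1) {q | (q.1 % 𝒯.H j, 𝒯.part j q.2 (𝒯.pos j q.1)) ∈ B} := by
  ext x
  simp only [lev, mem_ofPred_eq]
  rw [S.ph_mod, ← S.wd_part]

theorem lev_le {j k : ℕ} (hjk : j ≤ k) (B : Set (ℕ × 𝒯.W j)) :
    ∃ B' : Set (ℕ × 𝒯.W k), S.lev j B = S.lev k B' := by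
  induction k, hjk using Nat.le_induction with
  | base => exact ⟨B, rfl⟩
  | succ k _ ih =>
    obtain ⟨B', h⟩ := ih
    exact ⟨_, h.trans (S.lev_succ k B')⟩

theorem lev_compl (j : ℕ) (B : Set (ℕ × 𝒯.W j)) : (S.lev j B)ᶜ = S.lev j Bᶜ := rfl

theorem lev_inter (j : ℕ) (B B' : Set (ℕ × 𝒯.W j)) :
    S.lev j B ∩ S.lev j B' = S.lev j (B ∩ B') := rfl

/-- The algebra of all events of some level. -/
def alg : Set (Set S.X) := {A | ∃ (j : ℕ) (B : Set (ℕ × 𝒯.W j)), A = S.lev j B}

theorem isSetAlgebra_alg : IsSetAlgebra S.alg where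
  empty_mem := ⟨0, ∅, by ext x; simp [lev]⟩
  compl_mem := by
    rintro A ⟨j, B, rfl⟩
    exact ⟨j, Bᶜ, S.lev_compl j B⟩
  union_mem := by
    rintro A A' ⟨j, B, rfl⟩ ⟨k, B', rfl⟩
    obtain ⟨C, hC⟩ := S.lev_le (le_max_left j k) B
    obtain ⟨C', hC'⟩ := S.lev_le (le_max_right j k) B'
    exact ⟨max j k, C ∪ C', by rw [hC, hC']; rfl⟩

theorem generateFrom_alg : S.ms = MeasurableSpace.generateFrom S.alg := by
  apply le_antisymm
  · rw [S.gen]
    apply MeasurableSpace.generateFrom_mono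
    rintro A ⟨j, t, v, rfl⟩
    refine ⟨j, {(t, v)}, ?_⟩
    ext x
    simp [lev]
  · apply MeasurableSpace.generateFrom_le
    rintro A ⟨j, B, rfl⟩
    exact S.measurableSet_lev j B

/-- Events of level `j` are dense, for large `j`. -/
theorem exists_lev (A : Set S.X) (hA : MeasurableSet A) {ε : ℝ} (hε : 0 < ε) :
    ∃ j0, ∀ j, j0 ≤ j → ∃ B : Set (ℕ × 𝒯.W j), S.μ (A ∆ S.lev j B) < ENNReal.ofReal ε := by
  have hd := Measure.MeasureDense.of_generateFrom_isSetAlgebra_finite (μ := S.μ)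
    S.isSetAlgebra_alg S.generateFrom_alg
  obtain ⟨D, ⟨j0, B0, rfl⟩, h⟩ := hd.approx A hA (measure_ne_top _ _) ε hε
  refine ⟨j0, fun j hj => ?_⟩
  obtain ⟨B, hB⟩ := S.lev_le hj B0
  exact ⟨B, by rw [← hB]; exact h⟩

open Classical in
/-- Measure of an event of level `j`. -/
theorem measure_lev (j : ℕ) (B : Set (ℕ × 𝒯.W j)) :
    S.μ.real (S.lev j B) =
      (((Finset.range (𝒯.H j) ×ˢ Finset.univ).filter (fun q => q ∈ B)).card : ℝ) /
        (𝒯.H j * Fintype.card (𝒯.W j) : ℝ) := by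
  set F := (Finset.range (𝒯.H j) ×ˢ (Finset.univ : Finset (𝒯.W j))).filter (fun q => q ∈ B)
    with hF
  have h1 : S.lev j B = ⋃ q ∈ F, {x | S.ph j x = q.1 ∧ S.wd j x = q.2} := by
    ext x
    simp only [lev, mem_ofPred_eq, mem_iUnion, exists_prop]
    constructor
    · intro h
      refine ⟨(S.ph j x, S.wd j x), ?_, rfl, rfl⟩
      simp only [hF, Finset.mem_filter, Finset.mem_product, Finset.mem_range, Finset.mem_univ,
        and_true]
      exact ⟨S.ph_lt j x, h⟩
    · rintro ⟨⟨t, v⟩, h, h1, h2⟩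
      simp only at h1 h2
      rw [h1, h2]
      exact (Finset.mem_filter.1 h).2
  rw [h1, measureReal_biUnion_finset]
  · have h2 : ∀ q ∈ F, S.μ.real {x | S.ph j x = q.1 ∧ S.wd j x = q.2} =
        (𝒯.H j * Fintype.card (𝒯.W j) : ℝ)⁻¹ := by
      intro q hq
      have h3 : q.1 < 𝒯.H j := by
        have := (Finset.mem_product.1 (Finset.mem_filter.1 hq).1).1
        exact Finset.mem_range.1 this
      rw [Measure.real, S.law j _ _ h3]
      simp
    rw [Finset.sum_congr rfl h2, Finset.sum_const, nsmul_eq_mul, div_eq_mul_inv]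
  · intro q _ q' _ hq
    rw [Function.onFun, Set.disjoint_left]
    rintro x ⟨h1, h2⟩ ⟨h3, h4⟩
    exact hq (Prod.ext (h1.symm.trans h3) (h2.symm.trans h4))
  · intro q _
    exact S.measurableSet_cell j _ _

theorem measurableSet_phase (j t : ℕ) : MeasurableSet {x | S.ph j x = t} :=
  S.meas_ph j (measurableSet_singleton t)

/-- All slices of an event invariant inside the blocks of level `j` have the same measure. -/
theorem measure_slice_eq {j : ℕ} {E : Set S.X} (hE : MeasurableSet E)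
    (hT : ∀ x, S.ph j x + 1 < 𝒯.H j → (S.T x ∈ E ↔ x ∈ E)) {t : ℕ} (ht : t < 𝒯.H j) :
    S.μ.real (E ∩ {x | S.ph j x = t}) = S.μ.real (E ∩ {x | S.ph j x = 0}) := by
  induction t with
  | zero => rfl
  | succ t ih =>
    rw [← ih (by omega)]
    have h1 : S.T ⁻¹' (E ∩ {x | S.ph j x = t + 1}) = E ∩ {x | S.ph j x = t} := by
      ext x
      simp only [mem_preimage, mem_inter_iff, mem_ofPred_eq]
      constructor
      · rintro ⟨h1, h2⟩
        have h3 : S.ph j x + 1 < 𝒯.H j := by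
          rcases Nat.lt_or_ge (S.ph j x + 1) (𝒯.H j) with h | h
          · exact h
          · have h4 := S.ph_lt j x
            rw [S.ph_T_last j x (by omega)] at h2
            omega
        rw [S.ph_T j x h3] at h2
        exact ⟨(hT x h3).1 h1, by omega⟩
      · rintro ⟨h1, h2⟩
        have h3 : S.ph j x + 1 < 𝒯.H j := by omega
        rw [S.ph_T j x h3]
        exact ⟨(hT x h3).2 h1, by omega⟩
    rw [← h1, measureReal_def, measureReal_def,
      S.mp.measure_preimage (hE.inter (S.measurableSet_phase j _)).nullMeasurableSet]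

theorem measure_eq_sum (j : ℕ) {E : Set S.X} (hE : MeasurableSet E) :
    S.μ.real E = ∑ t ∈ Finset.range (𝒯.H j), S.μ.real (E ∩ {x | S.ph j x = t}) := by
  have h1 : E = ⋃ t ∈ Finset.range (𝒯.H j), (E ∩ {x | S.ph j x = t}) := by
    ext x
    simp only [mem_iUnion, mem_inter_iff, mem_ofPred_eq, Finset.mem_range, exists_prop]
    constructor
    · intro h; exact ⟨_, S.ph_lt j x, h, rfl⟩
    · rintro ⟨_, _, h, _⟩; exact h
  conv_lhs => rw [h1]
  rw [measureReal_biUnion_finset]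
  · intro q _ q' _ hq
    rw [Function.onFun, Set.disjoint_left]
    rintro x ⟨_, h1⟩ ⟨_, h2⟩
    exact hq (h1.symm.trans h2)
  · intro q _
    exact hE.inter (S.measurableSet_phase j _)

theorem measure_eq_slice {j : ℕ} {E : Set S.X} (hE : MeasurableSet E)
    (hT : ∀ x, S.ph j x + 1 < 𝒯.H j → (S.T x ∈ E ↔ x ∈ E)) {t : ℕ} (ht : t < 𝒯.H j) :
    S.μ.real E = 𝒯.H j * S.μ.real (E ∩ {x | S.ph j x = t}) := by
  rw [S.measure_eq_sum j hE, Finset.sum_congr rfl
    (fun s hs => S.measure_slice_eq hE hT (Finset.mem_range.1 hs)), S.measure_slice_eq hE hT ht]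
  simp

end Sys

end GTower

end Vale.Agent.P109
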